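import Vale.Agent.P025.H25.Q2

/-! # The finite computation over `ℚ_[2]` -/

namespace P025H25

/-- the relation between the classes `ra` at `a` and `rb` at `b` -/
def okK (κ : Bool) (a : ℤ) (ra : ℕ) (b : ℤ) (rb : ℕ) : Bool :=
  T (ra ^^^ cls (b - a)) (rb ^^^ cls (a - b)) == κ

/-- check the relations between the new class `c` at `n` and the classes `p` at the points of
`A` -/
def check (κ : Bool) (n : ℤ) (c : ℕ) : List ℤ → List ℕ → Bool
  | a :: A, ra :: p => okK κ n c a ra && check κ n c A p
  | _, _ => true

/-- all solutions of the pairwise relations on the list `A` -/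
def sols (κ : Bool) : List ℤ → List (List ℕ)
  | [] => [[]]
  | n :: A => (sols κ A).flatMap
      (fun p => ((List.range 8).filter (fun c => check κ n c A p)).map (fun c => c :: p))

lemma check_map (κ : Bool) (r : ℤ → ℕ) (n : ℤ) (c : ℕ) (A : List ℤ)
    (h : ∀ a ∈ A, okK κ n c a (r a) = true) : check κ n c A (A.map r) = true := by
  induction A with
  | nil => rfl
  | cons a A ih =>
    rw [List.map_cons]
    unfold check
    rw [Bool.and_eq_true]
    exact ⟨h a (by simp), ih (fun b hb => h b (by simp [hb]))⟩

lemma map_mem_sols (κ : Bool) (r : ℤ → ℕ) (A : List ℤ) (hA : A.Nodup) (hr : ∀ a ∈ A, r a < 8)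
    (h : ∀ a ∈ A, ∀ b ∈ A, a ≠ b → okK κ a (r a) b (r b) = true) :
    A.map r ∈ sols κ A := by
  induction A with
  | nil => simp [sols]
  | cons n A ih =>
    rw [List.nodup_cons] at hA
    have h1 := ih hA.2 (fun a ha => hr a (by simp [ha]))
      (fun a ha b hb hab => h a (by simp [ha]) b (by simp [hb]) hab)
    unfold sols
    rw [List.mem_flatMap]
    refine ⟨_, h1, ?_⟩
    rw [List.mem_map]
    refine ⟨r n, ?_, rfl⟩
    rw [List.mem_filter, List.mem_range]
    refine ⟨hr n (by simp), check_map κ r n (r n) A (fun a ha => ?_)⟩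
    apply h n (by simp) a (by simp [ha])
    rintro rfl
    exact hA.1 ha

/-- look up the class at `b` -/
def look : List ℤ → List ℕ → ℤ → ℕ
  | a :: A, r :: p, b => if a = b then r else look A p b
  | _, _, _ => 0

lemma look_map (r : ℤ → ℕ) (A : List ℤ) (b : ℤ) (hb : b ∈ A) : look A (A.map r) b = r b := by
  induction A with
  | nil => simp at hb
  | cons a A ih =>
    rw [List.map_cons]
    unfold look
    split_ifs with h
    · rw [h]
    · apply ih
      rcases List.mem_cons.1 hb with h1 | h1
      · exact absurd h1.symm h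
      · exact h1

/-- class of a product over the list `S` -/
def xorS (r : ℤ → ℕ) : List ℤ → ℕ
  | [] => 0
  | a :: S => r a ^^^ xorS r S

lemma xorS_congr (r r' : ℤ → ℕ) (S : List ℤ) (h : ∀ a ∈ S, r a = r' a) :
    xorS r S = xorS r' S := by
  induction S with
  | nil => rfl
  | cons a S ih =>
    unfold xorS
    rw [h a (by simp), ih (fun b hb => h b (by simp [hb]))]

/-- the pattern of classes of `num/den - a` -/
def zpat (A : List ℤ) (q : ℤ × ℤ) : List ℕ :=
  A.map (fun a => cls ((q.1 - a * q.2) * q.2))

end P025H25
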