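import Vale.Agent.P025.H25.Stmt

open IntermediateField

namespace P025H25

universe u v w

/-- `s` is a section of `Gal(maxUnr k K / K) → Gal(constClosure k K / k)`: it is continuous and
`s σ` acts on constants as `σ`. -/
structure IsSection (k : Type u) (K : Type v) [Field k] [Field K] [Algebra k K]
    (s : Gal(constClosure k K/k) →* Gal(maxUnr k K/K)) : Prop where
  continuous : Continuous s
  lifts : ∀ (σ : Gal(constClosure k K/k)) (x : constClosure k K) (y : maxUnr k K),
    (x : AlgebraicClosure K) = (y : AlgebraicClosure K) →
      ((σ x : constClosure k K) : AlgebraicClosure K) =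
        ((s σ y : maxUnr k K) : AlgebraicClosure K)

/-- the homomorphism underlying a section -/
noncomputable def Section.toHom {k : Type u} {K : Type v} [Field k] [Field K] [Algebra k K]
    (s : Section k K) : Gal(constClosure k K/k) →* Gal(maxUnr k K/K) := s.hom

lemma Section.isSection {k : Type u} {K : Type v} [Field k] [Field K] [Algebra k K]
    (s : Section k K) : IsSection k K s.toHom where
  continuous := s.cont
  lifts := by
    intro σ x y hxy
    obtain ⟨y', hy', h⟩ := s.lifts σ (x : AlgebraicClosure K) (σ x : constClosure k K)
      ⟨x, rfl, rfl⟩ (by rw [hxy]; exact y.2)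
    have : y' = y := Subtype.ext (hy'.trans hxy)
    rw [this] at h
    exact h.symm

lemma Section.fixes_of {k : Type u} {K : Type v} [Field k] [Field K] [Algebra k K]
    (s : Section k K) (y : maxUnr k K) (h : ∀ σ, s.toHom σ y = y) :
    s.Fixes (y : AlgebraicClosure K) := by
  intro σ
  exact ⟨y, rfl, congrArg (fun z : maxUnr k K => (z : AlgebraicClosure K)) (h σ)⟩

end P025H25
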