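import Vale.Agent.P025.H25.Symbol

namespace P025H25

universe u v w

variable {k : Type u} {K : Type v} [Field k] [Field K] [Algebra k K] [CharZero k]
  {s : Gal(constClosure k K/k) →* Gal(maxUnr k K/K)}

theorem symbol_rigidity (hs : IsSection k K s) (t : K) (ht : ∀ z : k, t ≠ algebraMap k K z)
    {ι : Type w} (e : ι → k) (heven : ∀ i, IsEven k (t - algebraMap k K (e i))) :
    ∃ (x : ι → k) (y : ι → maxUnr k K),
      (∀ i, x i ≠ 0 ∧ (∀ σ, s σ (y i) = y i) ∧
        algebraMap K (maxUnr k K) (t - algebraMap k K (e i)) =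
          algebraMap k (maxUnr k K) (x i) * y i ^ 2) ∧
      ∀ i j l m, e i ≠ e j → e l ≠ e m →
        (Split (x l / (e m - e l)) (x m / (e l - e m)) ↔
          Split (x i / (e j - e i)) (x j / (e i - e j))) := by
  have h1 : ∀ i, ∃ (x : k) (y : maxUnr k K), x ≠ 0 ∧ (∀ σ, s σ y = y) ∧
      algebraMap K (maxUnr k K) (t - algebraMap k K (e i)) =
        algebraMap k (maxUnr k K) x * y ^ 2 := by
    intro i
    refine exists_class hs _ ?_ (heven i)
    intro h0
    exact ht _ (sub_eq_zero.1 h0)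
  choose x y hx0 hy hxy using h1
  refine ⟨x, y, fun i => ⟨hx0 i, hy i, hxy i⟩, ?_⟩
  have key : ∀ i j l m, e i ≠ e j → e l ≠ e m →
        Split (x l / (e m - e l)) (x m / (e l - e m)) →
          Split (x i / (e j - e i)) (x j / (e i - e j)) := by
    intro i j l m hij hlm h
    exact split_transfer hs t ht (e i) (e j) (e l) (e m) (x i) (x j) (x l) (x m) (hx0 i)
      (hx0 j) (hx0 l) (hx0 m) (sub_ne_zero.2 hij.symm) (sub_ne_zero.2 hlm.symm) (y i) (y j)
      (y l) (y m) (hy i) (hy j) (hy l) (hy m) (heven i) (heven j) (heven l) (heven m)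
      (hxy i) (hxy j) (hxy l) (hxy m) h
  exact fun i j l m hij hlm => ⟨key i j l m hij hlm, key l m i j hlm hij⟩

end P025H25
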