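import Vale.Agent.P025.H25.Main
import Vale.Agent.P025.H25.Rigidity

namespace P025H25

universe u v w

lemma even_of_branch {k : Type u} {K : Type v} [Field k] [CharZero k] [Field K] [Algebra k K]
    (t : K) {J : Type w} (A : Finset ℤ) (S : J → Finset ℤ) (hA : IsBranchSet A S) (c : J → k)
    (wf : J → K) (hw : OnCurve S c t wf) : ∀ a ∈ A, IsEven k (t - (a : K)) := by
  intro a ha
  obtain ⟨j, hj⟩ := (hA.1 a).1 ha
  have := isEven_of_relations t (fun a : ℤ => (a : k)) S c wf (fun j => (hw j).1)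
    (by intro i i' j j' _ _ h; exact_mod_cast h)
    (by
      intro j
      rw [(hw j).2]
      refine Finset.prod_congr rfl (fun a _ => ?_)
      rw [map_intCast]) hA.2 a j hj
  simpa using this

lemma emb_eq {k : Type u} {K : Type v} [Field k] [Field K] [Algebra k K] (f : K) (c : k)
    (y : maxUnr k K)
    (h : algebraMap K (maxUnr k K) f = algebraMap k (maxUnr k K) c * y) :
    emb f = emb (algebraMap k K c) * (y : AlgebraicClosure K) := by
  have h1 := congrArg (fun z : maxUnr k K => (z : AlgebraicClosure K)) h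
  exact h1

variable {K : Type v} [Field K] [Algebra ℚ_[2] K]

theorem looks_like_point (s : Section ℚ_[2] K) (t : K) (ht : NonConst ℚ_[2] t)
    (heven : ∀ a ∈ Finset.Icc (0 : ℤ) 8, IsEven ℚ_[2] (t - (a : K))) {J : Type w}
    (S : J → Finset ℤ) (hS : ∀ j, S j ⊆ Finset.Icc (0 : ℤ) 8) (c : J → ℚ_[2]) (wf : J → K)
    (hw : OnCurve S c t wf) : LooksLikePoint s (Finset.Icc (0 : ℤ) 8) S c t wf := by
  have hs := s.isSection
  have hlift : ∀ a ∈ Finset.Icc (0 : ℤ) 8, ∃ n : ℕ, n < 9 ∧ (n : ℤ) = a := by decide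
  obtain ⟨z, hz⟩ := kummer_shadow hs t ht (by
    intro a ha
    have := heven a (by rw [Finset.mem_Icc]; omega)
    rwa [Int.cast_natCast] at this)
  have hz' : ∀ a ∈ Finset.Icc (0 : ℤ) 8, z ≠ a ∧ ∃ y : maxUnr ℚ_[2] K,
      (∀ σ, s.toHom σ y = y) ∧ y ≠ 0 ∧ algebraMap K (maxUnr ℚ_[2] K) (t - (a : K)) =
        algebraMap ℚ_[2] (maxUnr ℚ_[2] K) (z - a) * y ^ 2 := by
    intro a ha
    obtain ⟨n, hn, rfl⟩ := hlift a ha
    rw [Int.cast_natCast, Int.cast_natCast]
    exact hz n hn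
  choose! hza y hyfix hy0 hty using hz'
  have heta : ∀ j, ∃ η : ℚ_[2], algebraMap K (maxUnr ℚ_[2] K) (wf j) =
      algebraMap ℚ_[2] (maxUnr ℚ_[2] K) η * ∏ a ∈ S j, y a ∧
        c j * η ^ 2 = ∏ a ∈ S j, (z - (a : ℚ_[2])) := by
    intro j
    exact exists_eta hs (c j) (hw j).1 (wf j) (S j) (fun a : ℤ => t - (a : K))
      (fun a : ℤ => z - a) y (fun a ha => hyfix a (hS j ha)) (fun a ha => hty a (hS j ha))
      (fun a ha => hy0 a (hS j ha)) (hw j).2
  choose η hη1 hη2 using heta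
  refine ⟨z, η, fun a => (y a : AlgebraicClosure K), fun a ha =>
    ⟨hza a ha, s.fixes_of _ (hyfix a ha), ?_⟩, fun j => ⟨(hw j).1, hη2 j⟩, fun j => ?_⟩
  · have := emb_eq _ _ _ (hty a ha)
    rw [this]; rfl
  · have := emb_eq _ _ _ (hη1 j)
    rw [this]
    congr 1
    exact map_prod (maxUnr ℚ_[2] K).val y (S j)

theorem ratPlace_final (s : Section ℚ_[2] K) (t : K) (ht : Transcendental ℚ_[2] t)
    {J : Type w} (S : J → Finset ℤ) (hS : IsBranchSet (Finset.Icc (0 : ℤ) 8) S)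
    (c : J → ℚ_[2]) (wf : J → K) (hw : OnCurve S c t wf)
    (hgen : IntermediateField.adjoin ℚ_[2] ({t} ∪ Set.range wf) = ⊤) :
    ∃ V : ValuationSubring K, IsRatPlace ℚ_[2] K V := by
  have ht' : NonConst ℚ_[2] t := by
    intro z h
    apply ht
    rw [h]
    exact isAlgebraic_algebraMap z
  have hSsub : ∀ j, S j ⊆ Finset.Icc (0 : ℤ) 8 := fun j a ha => (hS.1 a).2 ⟨j, ha⟩
  obtain ⟨z, η, y, h1, h2, -⟩ := looks_like_point s t ht' (even_of_branch t _ S hS c wf hw) S
    hSsub c wf hw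
  classical
  have hinj : Function.Injective (fun a : ℤ => (a : ℚ_[2])) := Int.cast_injective
  refine exists_ratPlace t ht (fun j => (S j).image (fun a : ℤ => (a : ℚ_[2]))) c
    (fun j => (hw j).1) wf ?_ hgen z ?_ η ?_
  · intro j
    rw [(hw j).2, Finset.prod_image (fun a _ b _ h => hinj h)]
    refine Finset.prod_congr rfl (fun a _ => ?_)
    rw [map_intCast]
  · intro j a ha
    obtain ⟨n, hn, rfl⟩ := Finset.mem_image.1 ha
    exact (h1 n (hSsub j hn)).1
  · intro j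
    have := (h2 j).2
    rw [Finset.prod_image (fun a _ b _ h => hinj h)]
    exact this

theorem genus_three_final (s : Section ℚ_[2] K) (t : K) (ht : NonConst ℚ_[2] t)
    (c : ℤ) (hc : c ∈ ({1, -1, 5, -5, 10} : Set ℤ)) (u : K)
    (hu : (c : K) * u ^ 2 = ∏ a ∈ ({0, 1, 2, 3, 10, 12, 20} : Finset ℤ), (t - (a : K))) :
    LooksLikePoint s {0, 1, 2, 3, 10, 12, 20}
      (fun _ : Unit => ({0, 1, 2, 3, 10, 12, 20} : Finset ℤ)) (fun _ => (c : ℚ_[2])) t
      (fun _ => u) := by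
  obtain ⟨z, η, y, h1, h2, h3⟩ := genus_three s.isSection t ht c (by simpa using hc) u hu
  have hc0 : (c : ℚ_[2]) ≠ 0 := by
    have h0 : c ≠ 0 := by
      rintro rfl
      simp at hc
    exact_mod_cast h0
  refine ⟨z, fun _ => η, fun a => (y a : AlgebraicClosure K), fun a ha =>
    ⟨(h1 a ha).1, s.fixes_of _ (h1 a ha).2.1, ?_⟩, fun _ => ⟨hc0, h2⟩, fun _ => ?_⟩
  · have := emb_eq _ _ _ (h1 a ha).2.2
    rw [this]; rfl
  · have := emb_eq _ _ _ h3
    rw [this]
    congr 1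

theorem look_final : SectionsLookLikePoints.{0, v, w} ℚ_[2] K (Finset.Icc 0 8) := by
  intro s t J S c wf ht hS hw hev
  refine looks_like_point s t ht ?_ S hS c wf hw
  rcases hev with h | h
  · exact h
  · exact even_of_branch t _ S h c wf hw

theorem place_final : SectionGivesPlace.{0, v, w} ℚ_[2] K (Finset.Icc 0 8) := by
  rintro t J S c wf ht hgen hw hS ⟨s⟩
  exact ratPlace_final s t ht S hS c wf hw hgen

theorem rigidity_final {k : Type u} {K : Type v} [Field k] [Field K] [Algebra k K] [CharZero k]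
    (s : Section k K) (t : K) (ht : NonConst k t) {ι : Type w} (e : ι → k)
    (heven : ∀ i, IsEven k (t - algebraMap k K (e i))) : SymbolRigidity s e t := by
  obtain ⟨x, y, h1, h2⟩ := symbol_rigidity s.isSection t ht e heven
  refine ⟨x, fun i => (y i : AlgebraicClosure K), fun i =>
    ⟨(h1 i).1, s.fixes_of _ (h1 i).2.1, ?_⟩, h2⟩
  have := emb_eq _ _ _ (h1 i).2.2
  rw [this]; rfl

end P025H25
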