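import Vale.Agent.P025.H25.Tower

open IntermediateField

namespace P025H25

universe u v w

section kummer

variable {k : Type u} {L : Type v} [Field k] [Field L] [Algebra k L] [IsGalois k L]

/-- quadratic Kummer theory for closed subgroups -/
lemma kummer_two (H N : Subgroup Gal(L/k)) (hN : IsClosed (N : Set Gal(L/k)))
    (hind : ∀ σ ∈ H, ∀ τ ∈ H, σ ∉ N → τ ∉ N → σ * τ ∈ N) (hNH : N ≤ H) :
    ∃ l : L, l ≠ 0 ∧ (∀ σ ∈ N, σ l = l) ∧ (∀ σ ∈ H, σ ∉ N → σ l = - l) := by
  by_cases h : H ≤ N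
  · exact ⟨1, one_ne_zero, fun σ _ => map_one σ, fun σ h1 h2 => absurd (h h1) h2⟩
  obtain ⟨τ, hτH, hτN⟩ := Set.not_subset.1 h
  have hτH : τ ∈ H := hτH
  have hτN : τ ∉ N := hτN
  have hex : ∃ μ : L, (∀ σ ∈ N, σ μ = μ) ∧ τ μ ≠ μ := by
    by_contra hcon
    push Not at hcon
    apply hτN
    have h1 := InfiniteGalois.fixingSubgroup_fixedField (⟨N, hN⟩ : ClosedSubgroup Gal(L/k))
    have h2 : τ ∈ (IntermediateField.fixedField N).fixingSubgroup := by
      rw [IntermediateField.mem_fixingSubgroup_iff]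
      intro x hx
      apply hcon
      intro σ hσ
      exact (IntermediateField.mem_fixedField_iff N x).1 hx σ hσ
    have h3 : (IntermediateField.fixedField N).fixingSubgroup = N := h1
    rw [h3] at h2
    exact h2
  obtain ⟨μ, hμ, hτμ⟩ := hex
  have hτinv : τ⁻¹ ∉ N := fun h => hτN (by simpa using N.inv_mem h)
  refine ⟨μ - τ μ, fun h0 => hτμ (sub_eq_zero.1 h0).symm, ?_, ?_⟩
  · intro σ hσ
    have hστ : σ * τ ∉ N := by
      intro h1
      apply hτN
      have := N.mul_mem (N.inv_mem hσ) h1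
      simpa using this
    have h2 : τ⁻¹ * (σ * τ) ∈ N :=
      hind _ (H.inv_mem hτH) _ (H.mul_mem (hNH hσ) hτH) hτinv hστ
    have h3 : σ (τ μ) = τ μ := by
      have h4 := hμ _ h2
      have h5 : τ ((τ⁻¹ * (σ * τ)) μ) = τ μ := by rw [h4]
      rw [← AlgEquiv.mul_apply] at h5
      rw [← AlgEquiv.mul_apply]
      simpa using h5
    rw [map_sub, hμ σ hσ, h3]
  · intro σ hσH hσN
    have h2 : τ⁻¹ * σ ∈ N := hind _ (H.inv_mem hτH) _ hσH hτinv hσN
    have h3 : σ μ = τ μ := by
      have h4 := hμ _ h2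
      have h5 : τ ((τ⁻¹ * σ) μ) = τ μ := by rw [h4]
      rw [← AlgEquiv.mul_apply] at h5
      simpa using h5
    have h6 : σ (τ μ) = μ := by
      have := hμ _ (hind _ hσH _ hτH hσN hτN)
      rwa [AlgEquiv.mul_apply] at this
    rw [map_sub, h3, h6, neg_sub]

end kummer

variable {k : Type u} {K : Type v} [Field k] [Field K] [Algebra k K] [CharZero k]

instance isGalois_const : IsGalois k (constClosure k K) := by
  haveI : Normal k (constClosure k K) := IsAlgClosure.normal k _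
  exact ⟨⟩

variable {s : Gal(constClosure k K/k) →* Gal(maxUnr k K/K)}

lemma fixed_algebraic (hs : IsSection k K s) (y : maxUnr k K) (hy : ∀ σ, s σ y = y)
    (halg : IsAlgebraic k (y : AlgebraicClosure K)) :
    ∃ c : k, y = algebraMap k (maxUnr k K) c := by
  have hmem : (y : AlgebraicClosure K) ∈ constClosure k K := mem_algebraicClosure_iff.2 halg
  set yC : constClosure k K := ⟨y, hmem⟩ with hyC
  have hfix : ∀ σ : Gal(constClosure k K/k), σ yC = yC := by
    intro σ
    have := hs.lifts σ yC y rfl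
    rw [hy σ] at this
    exact Subtype.ext this
  obtain ⟨c, hc⟩ := (InfiniteGalois.mem_range_algebraMap_iff_fixed yC).2 hfix
  refine ⟨c, ?_⟩
  apply Subtype.ext
  have h1 : ((algebraMap k (constClosure k K) c : constClosure k K) : AlgebraicClosure K) =
      (y : AlgebraicClosure K) := by rw [hc]
  rw [← h1]
  rfl

/-- the stabilizer of an element under the action through `s` -/
def stabS (s : Gal(constClosure k K/k) →* Gal(maxUnr k K/K)) (γ : maxUnr k K) :
    Subgroup Gal(constClosure k K/k) where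
  carrier := {σ | s σ γ = γ}
  mul_mem' := by
    intro a b ha hb
    simp only [Set.mem_ofPred_eq] at ha hb ⊢
    rw [map_mul, AlgEquiv.mul_apply, hb, ha]
  one_mem' := by simp
  inv_mem' := by
    intro a ha
    simp only [Set.mem_ofPred_eq] at ha ⊢
    rw [map_inv]
    apply (s a).injective
    rw [← AlgEquiv.mul_apply, mul_inv_cancel, ha]
    simp

omit [CharZero k] in
lemma mem_stabS (γ : maxUnr k K) (σ : Gal(constClosure k K/k)) :
    σ ∈ stabS s γ ↔ s σ γ = γ := Iff.rfl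

omit [CharZero k] in
/-- stabilizers of the action through a section are closed -/
lemma isClosed_stabS (hs : IsSection k K s) (γ : maxUnr k K) :
    IsClosed (stabS s γ : Set Gal(constClosure k K/k)) := by
  have : FiniteDimensional K (IntermediateField.adjoin K {γ}) :=
    IntermediateField.adjoin.finiteDimensional (Algebra.IsIntegral.isIntegral γ)
  have hopen := IntermediateField.fixingSubgroup_isOpen (IntermediateField.adjoin K {γ})
  have h1 : IsOpen (((IntermediateField.adjoin K {γ}).fixingSubgroup.comap s :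
      Subgroup Gal(constClosure k K/k)) : Set Gal(constClosure k K/k)) :=
    hopen.preimage hs.continuous
  have h2 : (IntermediateField.adjoin K {γ}).fixingSubgroup.comap s ≤ stabS s γ := by
    intro σ hσ
    rw [Subgroup.mem_comap, IntermediateField.mem_fixingSubgroup_iff] at hσ
    exact hσ γ (IntermediateField.mem_adjoin_simple_self K γ)
  have h3 : IsOpen (stabS s γ : Set Gal(constClosure k K/k)) := Subgroup.isOpen_mono h2 h1
  exact Subgroup.isClosed_of_isOpen _ h3

omit [CharZero k] in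
lemma s_const (s : Gal(constClosure k K/k) →* Gal(maxUnr k K/K)) (σ : Gal(constClosure k K/k))
    (c : k) : s σ (algebraMap k (maxUnr k K) c) = algebraMap k (maxUnr k K) c := by
  rw [IsScalarTower.algebraMap_apply k K (maxUnr k K), AlgEquiv.commutes]

omit [CharZero k] in
lemma isEven_quad {F : Type*} [Field F] [Algebra k F] (θ : F) (u : k) (hu : u ≠ 0)
    (hθ : θ ^ 2 = algebraMap k F u) (e e' : k) (hne : e ^ 2 - u * e' ^ 2 ≠ 0) :
    IsEven k (algebraMap k F e + algebraMap k F e' * θ) := by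
  intro V hV
  have hθ1 : V.valuation θ = 1 := by
    have h1 : V.valuation θ ^ 2 = 1 := by rw [← map_pow, hθ, hV.val_const hu]
    exact (pow_eq_one_iff_of_nonneg zero_le two_ne_zero).1 h1
  have hθV : θ ∈ V := (V.valuation_le_one_iff θ).1 hθ1.le
  have hA : algebraMap k F e + algebraMap k F e' * θ ∈ V :=
    V.add_mem _ _ (hV.const_mem e) (V.mul_mem _ _ (hV.const_mem e') hθV)
  have hB : algebraMap k F e - algebraMap k F e' * θ ∈ V :=
    sub_mem (hV.const_mem e) (V.mul_mem _ _ (hV.const_mem e') hθV)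
  rw [← V.valuation_le_one_iff] at hA hB
  have hprod : V.valuation (algebraMap k F e + algebraMap k F e' * θ) *
      V.valuation (algebraMap k F e - algebraMap k F e' * θ) = 1 := by
    rw [← map_mul, ← hV.val_const hne]
    congr 1
    rw [map_sub, map_mul, map_pow, map_pow, ← hθ]
    ring
  refine ⟨1, ?_⟩
  rw [map_one, one_pow]
  apply le_antisymm hA
  by_contra hlt
  push Not at hlt
  have : V.valuation (algebraMap k F e + algebraMap k F e' * θ) *
      V.valuation (algebraMap k F e - algebraMap k F e' * θ) < 1 :=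
    mul_lt_one_of_lt_of_le hlt hB
  rw [hprod] at this
  exact lt_irrefl _ this

/-- **Lemma N.** Let `θ² = u ∈ kˣ` be a nonsquare, let `g₀, g₁, m` be fixed by the section, let
`g₀ + g₁ θ` be a square in the maximal unramified extension and `g₀² - u g₁² = c m²` with a
nonzero constant `c`.  Then `c` is a norm from `k(θ)`. -/
lemma lemmaN (hs : IsSection k K s) (θ : maxUnr k K) (u : k) (hu : u ≠ 0)
    (hθ : θ ^ 2 = algebraMap k (maxUnr k K) u) (g0 g1 m γ : maxUnr k K)
    (hg0 : ∀ σ, s σ g0 = g0) (hg1 : ∀ σ, s σ g1 = g1) (hm : ∀ σ, s σ m = m) (hm0 : m ≠ 0)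
    (hγ : γ ^ 2 = g0 + g1 * θ) (c : k) (hc : c ≠ 0)
    (hN : g0 ^ 2 - algebraMap k (maxUnr k K) u * g1 ^ 2 = algebraMap k (maxUnr k K) c * m ^ 2) :
    (∃ e : k, u = e ^ 2) ∨ ∃ e0 e1 : k, c = e0 ^ 2 - u * e1 ^ 2 := by
  have h2 : (2 : k) ≠ 0 := two_ne_zero
  -- `θ` as a constant
  have hθΩ : (θ : AlgebraicClosure K) ^ 2 = algebraMap k (AlgebraicClosure K) u :=
    congrArg Subtype.val hθ
  have hθalg : IsAlgebraic k (θ : AlgebraicClosure K) := by
    have h1 : IsIntegral k ((θ : AlgebraicClosure K) ^ 2) := by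
      rw [hθΩ]; exact isIntegral_algebraMap
    exact (IsIntegral.of_pow (by norm_num) h1).isAlgebraic
  by_cases hfixθ : ∀ σ, s σ θ = θ
  · left
    obtain ⟨e, he⟩ := fixed_algebraic hs θ hfixθ hθalg
    refine ⟨e, ?_⟩
    rw [he, ← map_pow] at hθ
    exact ((algebraMap k (maxUnr k K)).injective hθ).symm
  right
  have hθ0 : θ ≠ 0 := by
    intro h0
    rw [h0] at hθ
    have : algebraMap k (maxUnr k K) u = 0 := by rw [← hθ]; ring
    exact hu (by simpa using this)
  have hsθ : ∀ σ, s σ θ = θ ∨ s σ θ = - θ := by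
    intro σ
    have h1 : (s σ θ) ^ 2 = θ ^ 2 := by
      rw [← map_pow, hθ, s_const]
    exact sq_eq_sq_iff_eq_or_eq_neg.1 h1
  push Not at hfixθ
  obtain ⟨τ, hτ⟩ := hfixθ
  have hτθ : s τ θ = - θ := (hsθ τ).resolve_left hτ
  have hτinvθ : s τ⁻¹ θ = - θ := by
    rcases hsθ τ⁻¹ with h | h
    · exfalso
      apply hτ
      have h3 : s τ (s τ⁻¹ θ) = θ := by
        rw [← AlgEquiv.mul_apply, ← map_mul, mul_inv_cancel]; simp
      rw [h] at h3
      exact h3
    · exact h
  -- the subgroup fixing `θ`, and membership facts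
  have hH1 : ∀ σ, σ ∉ stabS s θ → s σ θ = - θ := fun σ h => (hsθ σ).resolve_left h
  have hneg : (-θ : maxUnr k K) ≠ θ := by
    intro h
    have h3 : (2 : maxUnr k K) * θ = 0 := by linear_combination -h
    have h4 : (2 : maxUnr k K) ≠ 0 := by
      have := (map_ne_zero (algebraMap k (maxUnr k K))).2 h2
      rwa [map_ofNat] at this
    exact (mul_ne_zero h4 hθ0) h3
  have hA : ∀ σ, σ ∉ stabS s θ → τ⁻¹ * σ ∈ stabS s θ := by
    intro σ h
    rw [mem_stabS, map_mul, AlgEquiv.mul_apply, hH1 σ h, map_neg, hτinvθ, neg_neg]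
  have hB : ∀ σ, σ ∈ stabS s θ → σ * τ ∉ stabS s θ := by
    intro σ h h3
    rw [mem_stabS] at h
    rw [mem_stabS, map_mul, AlgEquiv.mul_apply, hτθ, map_neg, h] at h3
    exact hneg h3
  have hC : ∀ σ, σ ∉ stabS s θ → σ * τ ∈ stabS s θ := by
    intro σ h
    rw [mem_stabS, map_mul, AlgEquiv.mul_apply, hτθ, map_neg, hH1 σ h, neg_neg]
  have hτH : τ ∉ stabS s θ := hτ
  -- action on `γ`
  have hsγ : ∀ σ ∈ stabS s θ, s σ γ = γ ∨ s σ γ = - γ := by
    intro σ hσ
    rw [mem_stabS] at hσ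
    have h1 : (s σ γ) ^ 2 = γ ^ 2 := by
      rw [← map_pow, hγ, map_add, map_mul, hg0, hg1, hσ]
    exact sq_eq_sq_iff_eq_or_eq_neg.1 h1
  have hNmem : ∀ σ, σ ∈ stabS s θ ⊓ stabS s γ ↔ s σ θ = θ ∧ s σ γ = γ := fun σ => by
    rw [Subgroup.mem_inf, mem_stabS, mem_stabS]
  obtain ⟨l, hl0, hlN, hlH⟩ := kummer_two (stabS s θ) (stabS s θ ⊓ stabS s γ)
    (by
      rw [Subgroup.coe_inf]
      exact (isClosed_stabS hs θ).inter (isClosed_stabS hs γ))
    (by
      intro σ hσ ρ hρ hσN hρN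
      rw [hNmem] at hσN hρN ⊢
      rw [mem_stabS] at hσ hρ
      have h1 : s σ γ = - γ := (hsγ σ hσ).resolve_left (fun h => hσN ⟨hσ, h⟩)
      have h3 : s ρ γ = - γ := (hsγ ρ hρ).resolve_left (fun h => hρN ⟨hρ, h⟩)
      refine ⟨?_, ?_⟩
      · rw [map_mul, AlgEquiv.mul_apply, hρ, hσ]
      · rw [map_mul, AlgEquiv.mul_apply, h3, map_neg, h1, neg_neg])
    inf_le_left
  have hℓH : ∀ σ ∈ stabS s θ, σ (l ^ 2) = l ^ 2 := by
    intro σ hσ
    by_cases hσN : σ ∈ stabS s θ ⊓ stabS s γ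
    · rw [map_pow, hlN σ hσN]
    · rw [map_pow, hlH σ hσ hσN, neg_sq]
  have hℓnH : ∀ σ, σ ∉ stabS s θ → σ (l ^ 2) = τ (l ^ 2) := by
    intro σ hσ
    have h1 := hℓH _ (hA σ hσ)
    have h3 : τ ((τ⁻¹ * σ) (l ^ 2)) = τ (l ^ 2) := by rw [h1]
    rw [← AlgEquiv.mul_apply] at h3
    simpa using h3
  set θC : constClosure k K := ⟨θ, mem_algebraicClosure_iff.2 hθalg⟩ with hθCdef
  have hθC0 : θC ≠ 0 := by
    intro h0
    apply hθ0
    apply Subtype.ext
    exact congrArg (fun x : constClosure k K => (x : AlgebraicClosure K)) h0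
  have hσθC : ∀ σ, σ ∈ stabS s θ → σ θC = θC := by
    intro σ hσ
    rw [mem_stabS] at hσ
    have := hs.lifts σ θC θ rfl
    rw [hσ] at this
    exact Subtype.ext this
  have hσθC' : ∀ σ, σ ∉ stabS s θ → σ θC = - θC := by
    intro σ hσ
    have := hs.lifts σ θC θ rfl
    rw [hH1 σ hσ] at this
    exact Subtype.ext this
  have hsum : ∃ e : k, algebraMap k (constClosure k K) e = (l ^ 2 + τ (l ^ 2)) / 2 := by
    rw [← Set.mem_range, InfiniteGalois.mem_range_algebraMap_iff_fixed]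
    intro σ
    by_cases hσ : σ ∈ stabS s θ
    · have h1 : σ (τ (l ^ 2)) = τ (l ^ 2) := by
        rw [← AlgEquiv.mul_apply]; exact hℓnH _ (hB σ hσ)
      rw [map_div₀, map_add, hℓH σ hσ, h1, map_ofNat]
    · have h1 : σ (τ (l ^ 2)) = l ^ 2 := by
        rw [← AlgEquiv.mul_apply]; exact hℓH _ (hC σ hσ)
      rw [map_div₀, map_add, hℓnH σ hσ, h1, map_ofNat, add_comm]
  have hdiff : ∃ e : k, algebraMap k (constClosure k K) e =
      (l ^ 2 - τ (l ^ 2)) / (2 * θC) := by
    rw [← Set.mem_range, InfiniteGalois.mem_range_algebraMap_iff_fixed]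
    intro σ
    by_cases hσ : σ ∈ stabS s θ
    · have h1 : σ (τ (l ^ 2)) = τ (l ^ 2) := by
        rw [← AlgEquiv.mul_apply]; exact hℓnH _ (hB σ hσ)
      rw [map_div₀, map_sub, hℓH σ hσ, h1, map_mul, hσθC σ hσ, map_ofNat]
    · have h1 : σ (τ (l ^ 2)) = l ^ 2 := by
        rw [← AlgEquiv.mul_apply]; exact hℓH _ (hC σ hσ)
      rw [map_div₀, map_sub, hℓnH σ hσ, h1, map_mul, hσθC' σ hσ, map_ofNat]
      rw [mul_neg, div_neg, ← neg_div, neg_sub]
  obtain ⟨e, he⟩ := hsum
  obtain ⟨e', he'⟩ := hdiff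
  have h2C : (2 : constClosure k K) ≠ 0 := by
    have := (map_ne_zero (algebraMap k (constClosure k K))).2 h2
    rwa [map_ofNat] at this
  have hl2 : l ^ 2 = algebraMap k (constClosure k K) e +
      algebraMap k (constClosure k K) e' * θC := by
    rw [he, he']
    field_simp
    ring
  have hne : e ^ 2 - u * e' ^ 2 ≠ 0 := by
    intro h0
    have hθC2 : θC ^ 2 = algebraMap k (constClosure k K) u := Subtype.ext hθΩ
    have hτl2 : τ (l ^ 2) = algebraMap k (constClosure k K) e -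
        algebraMap k (constClosure k K) e' * θC := by
      rw [hl2, map_add, map_mul, AlgEquiv.commutes, AlgEquiv.commutes, hσθC' τ hτH]
      ring
    have h1 : l ^ 2 * τ (l ^ 2) = 0 := by
      rw [hτl2, hl2]
      have h3 : algebraMap k (constClosure k K) (e ^ 2 - u * e' ^ 2) = 0 := by rw [h0, map_zero]
      rw [map_sub, map_mul, map_pow, map_pow, ← hθC2] at h3
      linear_combination h3
    have h3 : l ^ 2 ≠ 0 := pow_ne_zero 2 hl0
    have h4 : τ (l ^ 2) ≠ 0 := by
      rw [Ne, EmbeddingLike.map_eq_zero_iff]; exact h3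
    exact (mul_ne_zero h3 h4) h1
  -- `l` lies in the maximal unramified extension
  have hl2Ω : (l : AlgebraicClosure K) ^ 2 = algebraMap k (AlgebraicClosure K) e +
      algebraMap k (AlgebraicClosure K) e' * (θ : AlgebraicClosure K) :=
    congrArg Subtype.val hl2
  have hlmem : (l : AlgebraicClosure K) ∈ maxUnr k K := by
    obtain ⟨F1, hF1, -, hθF1⟩ := isFinUnr_bot.exists_sqrt_const (K := K) h2
      (θ : AlgebraicClosure K) u hu hθΩ
    set θF : F1 := ⟨θ, hθF1⟩ with hθF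
    have hev := isEven_quad θF u hu (Subtype.ext hθΩ) e e' hne
    obtain ⟨F2, hF2, -, hlF2⟩ := hF1.exists_sqrt h2 (l : AlgebraicClosure K) _ hl2Ω hev
    exact hF2.le_maxUnr hlF2
  set lT : maxUnr k K := ⟨l, hlmem⟩ with hlTdef
  have hlT0 : lT ≠ 0 := by
    intro h0
    apply hl0
    apply Subtype.ext
    exact congrArg (fun x : maxUnr k K => (x : AlgebraicClosure K)) h0
  have hlT2 : lT ^ 2 = algebraMap k (maxUnr k K) e + algebraMap k (maxUnr k K) e' * θ :=
    Subtype.ext hl2Ω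
  have hslN : ∀ σ ∈ stabS s θ ⊓ stabS s γ, s σ lT = lT := by
    intro σ hσ
    have := hs.lifts σ l lT rfl
    rw [hlN σ hσ] at this
    exact (Subtype.ext this).symm
  have hslH : ∀ σ ∈ stabS s θ, σ ∉ stabS s θ ⊓ stabS s γ → s σ lT = - lT := by
    intro σ hσ hσN
    have := hs.lifts σ l lT rfl
    rw [hlH σ hσ hσN] at this
    exact (Subtype.ext this).symm
  set r : maxUnr k K := γ / lT with hr
  have hrH : ∀ σ ∈ stabS s θ, s σ r = r := by
    intro σ hσ
    by_cases hσN : σ ∈ stabS s θ ⊓ stabS s γ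
    · rw [hr, map_div₀, hslN σ hσN, ((hNmem σ).1 hσN).2]
    · have h1 : s σ γ = - γ :=
        (hsγ σ hσ).resolve_left (fun h => hσN ((hNmem σ).2 ⟨hσ, h⟩))
      rw [hr, map_div₀, hslH σ hσ hσN, h1, neg_div_neg_eq]
  have hrnH : ∀ σ, σ ∉ stabS s θ → s σ r = s τ r := by
    intro σ hσ
    have h1 := hrH _ (hA σ hσ)
    have h3 : s τ (s (τ⁻¹ * σ) r) = s τ r := by rw [h1]
    rw [← AlgEquiv.mul_apply, ← map_mul] at h3
    simpa using h3
  set R : maxUnr k K := r * s τ r with hR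
  have hRfix : ∀ σ, s σ R = R := by
    intro σ
    by_cases hσ : σ ∈ stabS s θ
    · have h1 : s σ (s τ r) = s τ r := by
        rw [← AlgEquiv.mul_apply, ← map_mul]; exact hrnH _ (hB σ hσ)
      rw [hR, map_mul, hrH σ hσ, h1]
    · have h1 : s σ (s τ r) = r := by
        rw [← AlgEquiv.mul_apply, ← map_mul]; exact hrH _ (hC σ hσ)
      rw [hR, map_mul, hrnH σ hσ, h1, mul_comm]
  have hr2 : r ^ 2 * (algebraMap k (maxUnr k K) e + algebraMap k (maxUnr k K) e' * θ) =
      g0 + g1 * θ := by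
    rw [← hlT2, ← hγ, hr, div_pow]
    field_simp
  have hτr2 : (s τ r) ^ 2 * (algebraMap k (maxUnr k K) e - algebraMap k (maxUnr k K) e' * θ) =
      g0 - g1 * θ := by
    have h1 := congrArg (s τ) hr2
    rw [map_mul, map_pow, map_add, map_mul, s_const, s_const, hτθ, map_add, map_mul, hg0, hg1,
      hτθ] at h1
    linear_combination h1
  have hR2 : R ^ 2 * algebraMap k (maxUnr k K) (e ^ 2 - u * e' ^ 2) =
      algebraMap k (maxUnr k K) c * m ^ 2 := by
    rw [← hN, hR, map_sub, map_mul, map_pow, map_pow, ← hθ]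
    linear_combination (s τ r) ^ 2 * (algebraMap k (maxUnr k K) e -
      algebraMap k (maxUnr k K) e' * θ) * hr2 + (g0 + g1 * θ) * hτr2
  set ρ : maxUnr k K := R / m with hρ
  have hρfix : ∀ σ, s σ ρ = ρ := by
    intro σ
    rw [hρ, map_div₀, hRfix, hm]
  have hneT : algebraMap k (maxUnr k K) (e ^ 2 - u * e' ^ 2) ≠ 0 :=
    (map_ne_zero _).2 hne
  have hρ2 : ρ ^ 2 = algebraMap k (maxUnr k K) (c / (e ^ 2 - u * e' ^ 2)) := by
    rw [hρ, div_pow, map_div₀, div_eq_div_iff (pow_ne_zero 2 hm0) hneT, hR2]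
  have hρalg : IsAlgebraic k (ρ : AlgebraicClosure K) := by
    have h1 : IsIntegral k ((ρ : AlgebraicClosure K) ^ 2) := by
      have : (ρ : AlgebraicClosure K) ^ 2 =
          algebraMap k (AlgebraicClosure K) (c / (e ^ 2 - u * e' ^ 2)) :=
        congrArg Subtype.val hρ2
      rw [this]; exact isIntegral_algebraMap
    exact (IsIntegral.of_pow (by norm_num) h1).isAlgebraic
  obtain ⟨ρ0, hρ0⟩ := fixed_algebraic hs ρ hρfix hρalg
  refine ⟨ρ0 * e, ρ0 * e', ?_⟩
  have h1 : ρ0 ^ 2 = c / (e ^ 2 - u * e' ^ 2) := by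
    apply (algebraMap k (maxUnr k K)).injective
    rw [map_pow, ← hρ0, hρ2]
  rw [eq_div_iff hne] at h1
  rw [← h1]
  ring

end P025H25
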