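import Vale.Agent.P025.H25.Shadow
import Vale.Agent.P025.H25.Place

/-! # Main theorems over `ℚ_[2]` -/

namespace P025H25

universe v

variable {K : Type v} [Field K] [Algebra ℚ_[2] K]
  {s : Gal(constClosure ℚ_[2] K/ℚ_[2]) →* Gal(maxUnr ℚ_[2] K/K)}

/-- a realized pattern gives a rational point -/
lemma realize (t : K) (A : List ℤ) (r : ℤ → ℕ) (x w : ℤ → ℚ_[2]) (y : ℤ → maxUnr ℚ_[2] K)
    (h : ∀ a ∈ A, r a < 8 ∧ w a ≠ 0 ∧ x a = R (r a) * w a ^ 2 ∧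
        (∀ σ, s σ (y a) = y a) ∧ y a ≠ 0 ∧
        algebraMap K (maxUnr ℚ_[2] K) (t - (a : K)) =
          algebraMap ℚ_[2] (maxUnr ℚ_[2] K) (x a) * y a ^ 2)
    (q : ℤ × ℤ) (hq0 : q.2 ≠ 0) (hpat : A.map r = zpat A q)
    (hgood : ∀ a ∈ A, q.1 - a * q.2 ≠ 0 ∧ cls ((q.1 - a * q.2) * q.2) < 8) :
    ∃ z : ℚ_[2], ∀ a ∈ A, z ≠ a ∧ ∃ y' : maxUnr ℚ_[2] K, (∀ σ, s σ y' = y') ∧ y' ≠ 0 ∧
      algebraMap K (maxUnr ℚ_[2] K) (t - (a : K)) =
        algebraMap ℚ_[2] (maxUnr ℚ_[2] K) (z - a) * y' ^ 2 := by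
  have hrq : ∀ a ∈ A, r a = cls ((q.1 - a * q.2) * q.2) := by
    unfold zpat at hpat
    rw [List.map_inj_left] at hpat
    exact hpat
  have hq0' : (q.2 : ℚ_[2]) ≠ 0 := by exact_mod_cast hq0
  refine ⟨(q.1 : ℚ_[2]) / q.2, fun a ha => ?_⟩
  obtain ⟨hne, hlt⟩ := hgood a ha
  obtain ⟨-, hwa, hxa, hya, hya0, hty⟩ := h a ha
  have hne' : (q.1 - a * q.2) * q.2 ≠ 0 := mul_ne_zero hne hq0
  obtain ⟨w', hw', hcls⟩ := cls_spec _ hne' hlt
  have hzw : (q.1 : ℚ_[2]) / q.2 - a = R (r a) * (w' / q.2) ^ 2 := by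
    rw [hrq a ha]
    have : ((q.1 : ℚ_[2]) - a * q.2) * q.2 =
        R (cls ((q.1 - a * q.2) * q.2)) * w' ^ 2 := by
      rw [← hcls]; push_cast; ring
    field_simp
    linear_combination this
  have hz0 : (q.1 : ℚ_[2]) / q.2 - a ≠ 0 := by
    rw [hzw]
    exact mul_ne_zero (R_cast_ne_zero _) (pow_ne_zero 2 (div_ne_zero hw' hq0'))
  have hcoef : w a * q.2 / w' ≠ 0 := div_ne_zero (mul_ne_zero hwa hq0') hw'
  refine ⟨fun h => hz0 (sub_eq_zero.2 h),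
    algebraMap ℚ_[2] (maxUnr ℚ_[2] K) (w a * q.2 / w') * y a, ?_, ?_, ?_⟩
  · intro σ
    rw [map_mul, s_const, hya]
  · exact mul_ne_zero ((map_ne_zero _).2 hcoef) hya0
  · rw [hty, hzw, hxa, mul_pow, ← mul_assoc, ← map_pow, ← map_mul]
    congr 2
    field_simp

/-- the points `0, …, 8` -/
def A9 : List ℤ := [8, 7, 6, 5, 4, 3, 2, 1, 0]

lemma A9_nodup : A9.Nodup := by decide

lemma A9_cls : ∀ a ∈ A9, ∀ b ∈ A9, a ≠ b → cls (b - a) < 8 := by decide +kernel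

lemma A9_true : sols true A9 = [] := by decide +kernel

/-- rational numbers realizing all solutions -/
def zs9 : List (ℤ × ℤ) :=
  [(-128, 1), (-128, 3), (-120, 1), (-104, 3), (-88, 5), (-72, 7), (-64, 1), (-64, 3), (-63,
  1), (-62, 1), (-61, 1), (-61, 3), (-60, 1), (-59, 1), (-58, 1), (-58, 3), (-57, 1), (-56, 1),
  (-55, 3), (-52, 3), (-49, 3), (-49, 5), (-46, 3), (-44, 5), (-43, 3), (-40, 3), (-39, 5),
  (-34, 5), (-32, 1), (-32, 3), (-31, 1), (-30, 1), (-29, 1), (-29, 3), (-29, 5), (-28, 1),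
  (-27, 1), (-26, 1), (-26, 3), (-25, 1), (-24, 1), (-24, 5), (-23, 1), (-23, 3), (-22, 1),
  (-21, 1), (-20, 1), (-20, 3), (-19, 1), (-18, 1), (-17, 1), (-17, 3), (-17, 5), (-16, 1),
  (-16, 3), (-15, 1), (-14, 1), (-14, 3), (-13, 1), (-13, 3), (-12, 1), (-12, 5), (-11, 1),
  (-11, 3), (-10, 1), (-10, 3), (-9, 1), (-8, 1), (-8, 3), (-8, 7), (-7, 1), (-7, 3), (-7, 5),
  (-6, 1), (-5, 1), (-4, 1), (-4, 3), (-3, 1), (-3, 2), (-3, 4), (-3, 8), (-3, 16), (-2, 1),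
  (-2, 5), (-1, 1), (-1, 2), (-1, 3), (-1, 4), (-1, 5), (-1, 8), (-1, 16), (1, 2), (1, 4), (1,
  8), (1, 16), (2, 3), (3, 2), (3, 4), (3, 5), (3, 8), (3, 16), (4, 5), (5, 3), (8, 3), (8, 5),
  (9, 1), (9, 5), (10, 1), (11, 1), (12, 1), (13, 1), (14, 1), (14, 5), (15, 1), (16, 1), (16,
  3), (17, 1), (18, 1), (19, 1), (19, 3), (20, 1), (21, 1), (22, 1), (22, 3), (23, 1), (24, 1),
  (25, 1), (26, 1), (27, 1), (28, 1), (29, 1), (30, 1), (31, 1), (32, 1), (32, 3), (33, 1),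
  (34, 1), (35, 1), (35, 3), (36, 1), (37, 1), (38, 1), (38, 3), (39, 1), (40, 1), (55, 1),
  (56, 1), (64, 1), (64, 3), (65, 1), (66, 1), (67, 1), (67, 3), (68, 1), (69, 1), (70, 1),
  (70, 3), (71, 1), (128, 1), (128, 3)]

lemma A9_false : ∀ p ∈ sols false A9, ∃ q ∈ zs9, p = zpat A9 q := by decide +kernel

lemma zs9_good : ∀ q ∈ zs9, q.2 ≠ 0 ∧ ∀ a ∈ A9, q.1 - a * q.2 ≠ 0 ∧
    cls ((q.1 - a * q.2) * q.2) < 8 := by decide +kernel

lemma mem_A9 (a : ℕ) (ha : a < 9) : (a : ℤ) ∈ A9 := by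
  interval_cases a <;> decide

theorem kummer_shadow (hs : IsSection ℚ_[2] K s) (t : K)
    (ht : ∀ z : ℚ_[2], t ≠ algebraMap ℚ_[2] K z)
    (heven : ∀ a : ℕ, a < 9 → IsEven ℚ_[2] (t - (a : K))) :
    ∃ z : ℚ_[2], ∀ a : ℕ, a < 9 → z ≠ a ∧ ∃ y : maxUnr ℚ_[2] K, (∀ σ, s σ y = y) ∧ y ≠ 0 ∧
      algebraMap K (maxUnr ℚ_[2] K) (t - (a : K)) =
        algebraMap ℚ_[2] (maxUnr ℚ_[2] K) (z - a) * y ^ 2 := by
  have hA : ∀ a ∈ A9, ∃ n : ℕ, n < 9 ∧ (n : ℤ) = a := by decide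
  have heven' : ∀ a ∈ A9, IsEven ℚ_[2] (t - (a : K)) := by
    intro a ha
    obtain ⟨n, hn, rfl⟩ := hA a ha
    rw [Int.cast_natCast]
    exact heven n hn
  obtain ⟨κ, r, x, w, y, hmem, hdata⟩ := section_data hs t ht A9 A9_nodup A9_cls heven'
  cases κ with
  | true => rw [A9_true] at hmem; simp at hmem
  | false =>
    obtain ⟨q, hq, hpat⟩ := A9_false _ hmem
    obtain ⟨hq0, hgood⟩ := zs9_good q hq
    obtain ⟨z, hz⟩ := realize t A9 r x w y hdata q hq0 hpat hgood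
    refine ⟨z, fun a ha => ?_⟩
    have := hz a (mem_A9 a ha)
    rw [Int.cast_natCast, Int.cast_natCast] at this
    exact this

theorem multiquadratic (hs : IsSection ℚ_[2] K s) (t : K)
    (ht : ∀ z : ℚ_[2], t ≠ algebraMap ℚ_[2] K z) {J : Type*} (S : J → Finset ℕ)
    (c : J → ℚ_[2]) (hc : ∀ j, c j ≠ 0) (wf : J → K) (hS : ∀ a, a < 9 ↔ ∃ j, a ∈ S j)
    (hodd : ∃ j, Odd (S j).card)
    (hw : ∀ j, algebraMap ℚ_[2] K (c j) * wf j ^ 2 = ∏ a ∈ S j, (t - (a : K))) :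
    ∃ (z : ℚ_[2]) (η : J → ℚ_[2]) (y : ℕ → maxUnr ℚ_[2] K),
      (∀ a : ℕ, a < 9 → z ≠ a ∧ (∀ σ, s σ (y a) = y a) ∧
        algebraMap K (maxUnr ℚ_[2] K) (t - (a : K)) =
          algebraMap ℚ_[2] (maxUnr ℚ_[2] K) (z - a) * y a ^ 2) ∧
      ∀ j, c j * η j ^ 2 = ∏ a ∈ S j, (z - a) ∧
        algebraMap K (maxUnr ℚ_[2] K) (wf j) =
          algebraMap ℚ_[2] (maxUnr ℚ_[2] K) (η j) * ∏ a ∈ S j, y a := by
  have heven : ∀ a : ℕ, a < 9 → IsEven ℚ_[2] (t - (a : K)) := by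
    intro a ha
    obtain ⟨j, hj⟩ := (hS a).1 ha
    have := isEven_of_relations t (fun a : ℕ => (a : ℚ_[2])) S c wf hc
      (by intro i i' j j' _ _ h; exact_mod_cast h)
      (by
        intro j
        rw [hw j]
        refine Finset.prod_congr rfl (fun a _ => ?_)
        rw [map_natCast]) hodd a j hj
    simpa using this
  obtain ⟨z, hz⟩ := kummer_shadow hs t ht heven
  choose! hza y hyfix hy0 hty using hz
  have heta : ∀ j, ∃ η : ℚ_[2], algebraMap K (maxUnr ℚ_[2] K) (wf j) =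
      algebraMap ℚ_[2] (maxUnr ℚ_[2] K) η * ∏ a ∈ S j, y a ∧
        c j * η ^ 2 = ∏ a ∈ S j, (z - a) := by
    intro j
    have hlt : ∀ a ∈ S j, a < 9 := fun a ha => (hS a).2 ⟨j, ha⟩
    exact exists_eta hs (c j) (hc j) (wf j) (S j) (fun a : ℕ => t - (a : K))
      (fun a : ℕ => z - a) y (fun a ha => hyfix a (hlt a ha)) (fun a ha => hty a (hlt a ha))
      (fun a ha => hy0 a (hlt a ha)) (hw j)
  choose η hη1 hη2 using heta
  exact ⟨z, η, y, fun a ha => ⟨hza a ha, hyfix a ha, hty a ha⟩, fun j => ⟨hη2 j, hη1 j⟩⟩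

theorem ratPlace_of_section (hs : IsSection ℚ_[2] K s) (t : K) (ht : Transcendental ℚ_[2] t)
    {J : Type*} (S : J → Finset ℕ)
    (c : J → ℚ_[2]) (hc : ∀ j, c j ≠ 0) (wf : J → K) (hS : ∀ a, a < 9 ↔ ∃ j, a ∈ S j)
    (hodd : ∃ j, Odd (S j).card)
    (hw : ∀ j, algebraMap ℚ_[2] K (c j) * wf j ^ 2 = ∏ a ∈ S j, (t - (a : K)))
    (hgen : IntermediateField.adjoin ℚ_[2] ({t} ∪ Set.range wf) = ⊤) :
    ∃ V : ValuationSubring K, IsRatPlace ℚ_[2] K V := by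
  have ht' : ∀ z : ℚ_[2], t ≠ algebraMap ℚ_[2] K z := by
    intro z h
    apply ht
    rw [h]
    exact isAlgebraic_algebraMap z
  obtain ⟨z, η, y, h1, h2⟩ := multiquadratic hs t ht' S c hc wf hS hodd hw
  classical
  have hinj : Function.Injective (fun a : ℕ => (a : ℚ_[2])) := Nat.cast_injective
  refine exists_ratPlace t ht (fun j => (S j).image (fun a : ℕ => (a : ℚ_[2]))) c hc wf ?_ hgen
    z ?_ η ?_
  · intro j
    rw [hw j, Finset.prod_image (fun a _ b _ h => hinj h)]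
    refine Finset.prod_congr rfl (fun a _ => ?_)
    rw [map_natCast]
  · intro j a ha
    obtain ⟨n, hn, rfl⟩ := Finset.mem_image.1 ha
    exact (h1 n ((hS n).2 ⟨j, hn⟩)).1
  · intro j
    rw [(h2 j).1, Finset.prod_image (fun a _ b _ h => hinj h)]

/-- the seven finite branch points of the genus three example -/
def A7 : List ℤ := [0, 1, 2, 3, 10, 12, 20]

lemma A7_nodup : A7.Nodup := by decide

lemma A7_cls : ∀ a ∈ A7, ∀ b ∈ A7, a ≠ b → cls (b - a) < 8 := by decide +kernel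

lemma A7_true : sols true A7 = [] := by decide +kernel

/-- rational numbers realizing the admissible solutions -/
def zs7 : List (ℤ × ℤ) :=
  [(-116, 1), (-108, 1), (-92, 3), (-78, 5), (-68, 3), (-68, 5), (-64, 1), (-64, 3), (-62, 1),
  (-58, 3), (-54, 1), (-52, 1), (-44, 1), (-44, 7), (-36, 1), (-34, 3), (-32, 3), (-31, 1),
  (-29, 1), (-29, 3), (-28, 5), (-26, 3), (-23, 1), (-23, 3), (-22, 1), (-21, 1), (-20, 1),
  (-17, 5), (-16, 1), (-16, 3), (-14, 1), (-14, 5), (-13, 1), (-12, 1), (-10, 3), (-7, 1), (-6,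
  1), (-5, 1), (-3, 4), (-3, 8), (-3, 16), (-1, 4), (-1, 16), (1, 2), (1, 4), (1, 16), (3, 4),
  (3, 16), (4, 3), (4, 5), (5, 1), (6, 7), (7, 1), (8, 1), (9, 1), (11, 1), (12, 7), (14, 3),
  (16, 1), (16, 3), (18, 1), (19, 3), (22, 3), (25, 1), (26, 1), (27, 1), (28, 3), (28, 5),
  (33, 1), (35, 1), (35, 3), (36, 1), (44, 1), (44, 7), (58, 1), (64, 1), (64, 3), (66, 1),
  (70, 3), (130, 1)]

lemma A7_false : ∀ p ∈ sols false A7, xorS (look A7 p) A7 ∈ [0, 2, 4, 5, 6] →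
    ∃ q ∈ zs7, p = zpat A7 q := by decide +kernel

lemma zs7_good : ∀ q ∈ zs7, q.2 ≠ 0 ∧ ∀ a ∈ A7, q.1 - a * q.2 ≠ 0 ∧
    cls ((q.1 - a * q.2) * q.2) < 8 := by decide +kernel

lemma cases7 : ∀ c ∈ ({1, -1, 5, -5, 10} : Finset ℤ), ∃ i ∈ [0, 2, 4, 5, 6],
    i < 8 ∧ c = R i := by decide

theorem genus_three (hs : IsSection ℚ_[2] K s) (t : K)
    (ht : ∀ z : ℚ_[2], t ≠ algebraMap ℚ_[2] K z) (c : ℤ) (hc : c ∈ ({1, -1, 5, -5, 10} : Finset ℤ))
    (u : K) (hu : (c : K) * u ^ 2 = ∏ a ∈ ({0, 1, 2, 3, 10, 12, 20} : Finset ℤ), (t - (a : K))) :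
    ∃ (z η : ℚ_[2]) (y : ℤ → maxUnr ℚ_[2] K),
      (∀ a ∈ ({0, 1, 2, 3, 10, 12, 20} : Finset ℤ), z ≠ a ∧ (∀ σ, s σ (y a) = y a) ∧
        algebraMap K (maxUnr ℚ_[2] K) (t - (a : K)) =
          algebraMap ℚ_[2] (maxUnr ℚ_[2] K) (z - a) * y a ^ 2) ∧
      (c : ℚ_[2]) * η ^ 2 = ∏ a ∈ ({0, 1, 2, 3, 10, 12, 20} : Finset ℤ), (z - (a : ℚ_[2])) ∧
      algebraMap K (maxUnr ℚ_[2] K) u =
        algebraMap ℚ_[2] (maxUnr ℚ_[2] K) η *
          ∏ a ∈ ({0, 1, 2, 3, 10, 12, 20} : Finset ℤ), y a := by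
  have hset : ({0, 1, 2, 3, 10, 12, 20} : Finset ℤ) = A7.toFinset := by decide
  obtain ⟨i, hi, hi8, hci⟩ := cases7 c hc
  have hc0 : (c : ℚ_[2]) ≠ 0 := by rw [hci]; exact R_cast_ne_zero i
  have heven : ∀ a ∈ A7, IsEven ℚ_[2] (t - (a : K)) := by
    intro a ha
    have := isEven_of_relations (J := Unit) t (fun a : ℤ => (a : ℚ_[2]))
      (fun _ => ({0, 1, 2, 3, 10, 12, 20} : Finset ℤ)) (fun _ => (c : ℚ_[2])) (fun _ => u)
      (fun _ => hc0) (by intro i i' j j' _ _ h; exact_mod_cast h)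
      (by
        intro _
        rw [map_intCast, hu]
        refine Finset.prod_congr rfl (fun a _ => ?_)
        rw [map_intCast]) ⟨(), by decide⟩ a () (by rw [hset]; exact List.mem_toFinset.2 ha)
    simpa using this
  obtain ⟨κ, r, x, w, y, hmem, hdata⟩ := section_data hs t ht A7 A7_nodup A7_cls heven
  have hxor : xorS r A7 = i := by
    refine relation_class hs t A7 A7_nodup r x w y hdata i hi8 u ?_
    rw [← hci, hu, hset, List.prod_toFinset _ A7_nodup]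
  cases κ with
  | true => rw [A7_true] at hmem; simp at hmem
  | false =>
    have hlook : xorS (look A7 (A7.map r)) A7 = i := by
      rw [← hxor]
      exact xorS_congr _ _ _ (fun a ha => look_map r A7 a ha)
    obtain ⟨q, hq, hpat⟩ := A7_false _ hmem (by rw [hlook]; exact hi)
    obtain ⟨hq0, hgood⟩ := zs7_good q hq
    obtain ⟨z, hz⟩ := realize t A7 r x w y hdata q hq0 hpat hgood
    choose! hza y' hyfix hy0 hty using hz
    obtain ⟨η, hη1, hη2⟩ := exists_eta hs (c : ℚ_[2]) hc0 u A7.toFinset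
      (fun a : ℤ => t - (a : K)) (fun a : ℤ => z - a) y'
      (fun a ha => hyfix a (List.mem_toFinset.1 ha)) (fun a ha => hty a (List.mem_toFinset.1 ha))
      (fun a ha => hy0 a (List.mem_toFinset.1 ha)) (by rw [map_intCast, hu, hset])
    refine ⟨z, η, y', ?_, ?_, ?_⟩
    · intro a ha
      rw [hset, List.mem_toFinset] at ha
      exact ⟨hza a ha, hyfix a ha, hty a ha⟩
    · rw [hset]; exact hη2
    · rw [hset]; exact hη1

lemma example_check : ∀ p ∈ sols false A9, xorS (look A9 p) [0, 3, 4] = 3 →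
    xorS (look A9 p) A9 = 4 → False := by decide +kernel

/-- an explicit curve without sections -/
theorem no_section_example (hs : IsSection ℚ_[2] K s) (t : K) (ht : ∀ z : ℚ_[2], t ≠ algebraMap ℚ_[2] K z) (u v : K)
    (hu : -2 * u ^ 2 = t * (t - 3) * (t - 4))
    (hv : 5 * v ^ 2 = ∏ a ∈ Finset.range 9, (t - (a : K))) :
    False := by
  have heven : ∀ a ∈ A9, IsEven ℚ_[2] (t - (a : K)) := by
    intro a ha
    have hA : ∀ a ∈ A9, ∃ n : ℕ, n ∈ Finset.range 9 ∧ (n : ℤ) = a := by decide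
    obtain ⟨n, hn, rfl⟩ := hA a ha
    have := isEven_of_relations (J := Unit) t (fun a : ℕ => (a : ℚ_[2]))
      (fun _ => Finset.range 9) (fun _ => (5 : ℚ_[2])) (fun _ => v)
      (fun _ => by norm_num) (by intro i i' j j' _ _ h; exact_mod_cast h)
      (by
        intro _
        rw [map_ofNat, hv]
        refine Finset.prod_congr rfl (fun a _ => ?_)
        rw [map_natCast]) ⟨(), by decide⟩ n () hn
    simpa using this
  obtain ⟨κ, r, x, w, y, hmem, hdata⟩ := section_data hs t ht A9 A9_nodup A9_cls heven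
  have h5 : R 4 = 5 := by decide
  have h2 : R 3 = -2 := by decide
  have hxor1 : xorS r A9 = 4 := by
    refine relation_class hs t A9 A9_nodup r x w y hdata 4 (by norm_num) v ?_
    rw [h5]
    push_cast
    rw [hv]
    simp only [A9, List.map_cons, List.map_nil, List.prod_cons, List.prod_nil,
      Finset.prod_range_succ, Finset.prod_range_zero]
    push_cast
    ring
  have hsub : ∀ a ∈ [(0 : ℤ), 3, 4], a ∈ A9 := by decide
  have hxor2 : xorS r [0, 3, 4] = 3 := by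
    refine relation_class hs t [0, 3, 4] (by decide) r x w y
      (fun a ha => hdata a (hsub a ha)) 3 (by norm_num) u ?_
    rw [h2]
    push_cast
    rw [hu]
    simp only [List.map_cons, List.map_nil, List.prod_cons, List.prod_nil]
    push_cast
    ring
  cases κ with
  | true => rw [A9_true] at hmem; simp at hmem
  | false =>
    apply example_check _ hmem
    · rw [← hxor2]
      exact xorS_congr _ _ _ (fun a ha => look_map r A9 a (hsub a ha))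
    · rw [← hxor1]
      exact xorS_congr _ _ _ (fun a ha => look_map r A9 a ha)

end P025H25
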