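import Vale.Agent.P025.H25.Symbol

/-! # Square classes and Hilbert symbols over `ℚ_[2]` -/

namespace P025H25

open Polynomial

lemma exists_sq_of_one_mod_eight (u : ℤ_[2]) (hu : PadicInt.toZModPow 3 u = 1) :
    ∃ w : ℤ_[2], w ^ 2 = u ∧ w ≠ 0 := by
  have hmem : u - 1 ∈ Ideal.span {((2 : ℕ) : ℤ_[2]) ^ 3} := by
    rw [← PadicInt.ker_toZModPow, RingHom.mem_ker, map_sub, hu, map_one, sub_self]
  have hnorm : ‖u - 1‖ ≤ ((2 : ℕ) : ℝ) ^ (-(3 : ℕ) : ℤ) :=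
    (PadicInt.norm_le_pow_iff_mem_span_pow _ _).2 hmem
  have h2 : ‖(2 : ℤ_[2])‖ = 1 / 2 := by
    have := PadicInt.norm_p (p := 2)
    simpa using this
  have hF : ‖(X ^ 2 - C u : ℤ_[2][X]).aeval (1 : ℤ_[2])‖ <
      ‖(X ^ 2 - C u : ℤ_[2][X]).derivative.aeval (1 : ℤ_[2])‖ ^ 2 := by
    have h1 : (X ^ 2 - C u : ℤ_[2][X]).aeval (1 : ℤ_[2]) = 1 - u := by simp
    have h3 : (X ^ 2 - C u : ℤ_[2][X]).derivative.aeval (1 : ℤ_[2]) = 2 := by
      simp [one_add_one_eq_two]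
    rw [h1, h3, h2, norm_sub_rev]
    refine lt_of_le_of_lt hnorm ?_
    norm_num
  obtain ⟨z, hz, -, -, -⟩ := hensels_lemma hF
  have hz2 : z ^ 2 = u := by
    have : z ^ 2 - u = 0 := by simpa using hz
    linear_combination this
  refine ⟨z, hz2, ?_⟩
  intro h0
  rw [h0] at hz2
  rw [← hz2] at hu
  rw [zero_pow two_ne_zero, map_zero] at hu
  exact absurd hu (by decide)

/-- representatives of the square classes -/
def R (i : ℕ) : ℤ :=
  (if i.testBit 0 then 2 else 1) * (if i.testBit 1 then -1 else 1) *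
    (if i.testBit 2 then 5 else 1)

lemma R_ne_zero (i : ℕ) : R i ≠ 0 := by
  unfold R
  split_ifs <;> norm_num

lemma R_cast_ne_zero (i : ℕ) : (R i : ℚ_[2]) ≠ 0 := by
  exact_mod_cast R_ne_zero i

/-- the table of Hilbert symbols; `true` means that the symbol is nontrivial -/
def T (i j : ℕ) : Bool := Nat.testBit 10837449240524681216 (8 * i + j)

/-- class of an odd integer -/
def oddCls (n : ℤ) : ℕ :=
  if n % 8 = 1 then 0 else if n % 8 = 7 then 2 else if n % 8 = 5 then 4 else 6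

/-- class of an integer, computed with fuel -/
def clsAux : ℕ → ℤ → ℕ
  | 0, _ => 8
  | f + 1, n => if n % 4 = 0 then clsAux f (n / 4) else
      if n % 2 = 0 then oddCls (n / 2) + 1 else oddCls n

def cls (n : ℤ) : ℕ := clsAux 16 n

lemma exists_sq_of_unit_class (u : ℤ_[2]) (m : ℤ) (hm0 : m ≠ 0)
    (h : PadicInt.toZModPow 3 (u * (m : ℤ_[2])) = 1) :
    ∃ w : ℚ_[2], w ≠ 0 ∧ (u : ℚ_[2]) = m * w ^ 2 := by
  obtain ⟨z, hz, hz0⟩ := exists_sq_of_one_mod_eight _ h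
  have hm : (m : ℚ_[2]) ≠ 0 := by exact_mod_cast hm0
  have hz' : (z : ℚ_[2]) ^ 2 = u * m := by
    have := congrArg (fun x : ℤ_[2] => (x : ℚ_[2])) hz
    push_cast at this
    exact this
  refine ⟨z / m, div_ne_zero (by simpa using hz0) hm, ?_⟩
  rw [div_pow, hz']
  field_simp

lemma oddCls_spec (n : ℤ) (hn : n % 2 = 1) :
    ∃ w : ℚ_[2], w ≠ 0 ∧ (n : ℚ_[2]) = R (oddCls n) * w ^ 2 := by
  have key : ∀ m : ℤ, m ≠ 0 → (n * m) % 8 = 1 → ∃ w : ℚ_[2], w ≠ 0 ∧ (n : ℚ_[2]) = m * w ^ 2 := by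
    intro m hm h
    have h1 : PadicInt.toZModPow 3 ((n : ℤ_[2]) * (m : ℤ_[2])) = 1 := by
      rw [map_mul, map_intCast, map_intCast, ← Int.cast_mul]
      have h2 : (((n * m : ℤ)) : ZMod (2 ^ 3)) = ((1 : ℤ) : ZMod (2 ^ 3)) := by
        rw [ZMod.intCast_eq_intCast_iff]
        show (n * m) % ((2 ^ 3 : ℕ) : ℤ) = 1 % ((2 ^ 3 : ℕ) : ℤ)
        norm_num
        exact h
      rw [h2, Int.cast_one]
    obtain ⟨w, hw, h3⟩ := exists_sq_of_unit_class (n : ℤ_[2]) m hm h1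
    refine ⟨w, hw, ?_⟩
    rw [← h3]
    simp
  have h8 : n % 8 = 1 ∨ n % 8 = 3 ∨ n % 8 = 5 ∨ n % 8 = 7 := by omega
  rcases h8 with h | h | h | h
  · have h0 : oddCls n = 0 := by simp [oddCls, h]
    rw [h0]
    have h1 : R 0 = 1 := by decide
    rw [h1]
    exact key 1 (by norm_num) (by omega)
  · have h0 : oddCls n = 6 := by simp [oddCls, h]
    rw [h0]
    have h1 : R 6 = -5 := by decide
    rw [h1]
    exact key (-5) (by norm_num) (by omega)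
  · have h0 : oddCls n = 4 := by simp [oddCls, h]
    rw [h0]
    have h1 : R 4 = 5 := by decide
    rw [h1]
    exact key 5 (by norm_num) (by omega)
  · have h0 : oddCls n = 2 := by simp [oddCls, h]
    rw [h0]
    have h1 : R 2 = -1 := by decide
    rw [h1]
    exact key (-1) (by norm_num) (by omega)

lemma oddCls_lt (n : ℤ) : oddCls n < 7 := by
  unfold oddCls
  split_ifs <;> norm_num

lemma oddCls_even (n : ℤ) : R (oddCls n + 1) = 2 * R (oddCls n) := by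
  unfold oddCls
  split_ifs <;> decide

lemma clsAux_spec (f : ℕ) : ∀ n : ℤ, n ≠ 0 → clsAux f n < 8 →
    ∃ w : ℚ_[2], w ≠ 0 ∧ (n : ℚ_[2]) = R (clsAux f n) * w ^ 2 := by
  induction f with
  | zero => intro n _ h; exact absurd h (by simp [clsAux])
  | succ f ih =>
    intro n hn h
    unfold clsAux at h ⊢
    split_ifs at h ⊢ with h4 h2
    · have hn4 : n / 4 ≠ 0 := by omega
      obtain ⟨w, hw, h5⟩ := ih (n / 4) hn4 h
      refine ⟨2 * w, mul_ne_zero two_ne_zero hw, ?_⟩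
      have h6 : n = 4 * (n / 4) := by omega
      have h7 : (n : ℚ_[2]) = 4 * ((n / 4 : ℤ) : ℚ_[2]) := by exact_mod_cast h6
      rw [h7, h5]
      ring
    · obtain ⟨w, hw, h5⟩ := oddCls_spec (n / 2) (by omega)
      refine ⟨w, hw, ?_⟩
      have h6 : n = 2 * (n / 2) := by omega
      have h7 : (n : ℚ_[2]) = 2 * ((n / 2 : ℤ) : ℚ_[2]) := by exact_mod_cast h6
      rw [h7, h5, oddCls_even]
      push_cast
      ring
    · exact oddCls_spec n (by omega)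

lemma cls_spec (n : ℤ) (hn : n ≠ 0) (h : cls n < 8) :
    ∃ w : ℚ_[2], w ≠ 0 ∧ (n : ℚ_[2]) = R (cls n) * w ^ 2 :=
  clsAux_spec 16 n hn h

/-- every nonzero 2-adic number is a representative times a square -/
lemma exists_class_Q2 (u : ℚ_[2]) (hu : u ≠ 0) :
    ∃ i < 8, ∃ w : ℚ_[2], w ≠ 0 ∧ u = R i * w ^ 2 := by
  -- the unit part
  set n : ℤ := u.valuation with hn
  have h2 : ((2 : ℕ) : ℚ_[2]) ≠ 0 := by norm_num
  have h2' : (2 : ℚ_[2]) ≠ 0 := two_ne_zero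
  have hnorm : ‖u * ((2 : ℕ) : ℚ_[2]) ^ (-n)‖ = 1 := by
    rw [norm_mul, Padic.norm_eq_zpow_neg_valuation hu, Padic.norm_p_zpow, neg_neg,
      ← zpow_add₀ (by norm_num)]
    simp [hn]
  set x : ℤ_[2] := ⟨u * ((2 : ℕ) : ℚ_[2]) ^ (-n), hnorm.le⟩ with hx
  have hxu : IsUnit x := PadicInt.isUnit_iff.2 hnorm
  have hux : u = (x : ℚ_[2]) * (2 : ℚ_[2]) ^ n := by
    rw [hx]
    push_cast
    rw [mul_assoc, ← zpow_add₀ h2']
    simp
  have hm : IsUnit (PadicInt.toZModPow 3 x) := hxu.map _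
  have hcases : ∀ m : ZMod (2 ^ 3), IsUnit m → ∃ i : Fin 8,
      (i.val + 1 < 8 ∧ R (i.val + 1) = 2 * R i.val) ∧
      m * (R i.val : ZMod (2 ^ 3)) = 1 := by decide
  obtain ⟨i, ⟨hi8, hR⟩, him⟩ := hcases _ hm
  obtain ⟨w, hw0, hw⟩ := exists_sq_of_unit_class x (R i) (R_ne_zero i) (by
    rw [map_mul, map_intCast, him])
  rcases Int.even_or_odd' n with ⟨q, hq | hq⟩
  · refine ⟨i, i.2, w * 2 ^ q, mul_ne_zero hw0 (zpow_ne_zero _ h2'), ?_⟩
    rw [hux, hw, hq, mul_pow, ← zpow_natCast ((2 : ℚ_[2]) ^ q), ← zpow_mul]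
    rw [mul_comm 2 q]
    push_cast
    ring
  · refine ⟨i.val + 1, hi8, w * 2 ^ q, mul_ne_zero hw0 (zpow_ne_zero _ h2'), ?_⟩
    · rw [hux, hw, hq, mul_pow, ← zpow_natCast ((2 : ℚ_[2]) ^ q), ← zpow_mul, hR,
        zpow_add₀ h2', zpow_one]
      rw [mul_comm 2 q]
      push_cast
      ring

lemma T_false_points : ∀ i : Fin 8, ∀ j : Fin 8, T i j = false → ∃ x : Fin 6, ∃ y : Fin 6,
    (R i * (x : ℕ) ^ 2 + R j * (y : ℕ) ^ 2 ≠ 0 ∧
      cls (R i * (x : ℕ) ^ 2 + R j * (y : ℕ) ^ 2) = 0) := by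
  decide

lemma split_of_T (i j : ℕ) (hi : i < 8) (hj : j < 8) (h : T i j = false) :
    Split (R i : ℚ_[2]) (R j : ℚ_[2]) := by
  obtain ⟨x, y, hne, h0⟩ := T_false_points ⟨i, hi⟩ ⟨j, hj⟩ h
  obtain ⟨w, hw, h1⟩ := cls_spec _ hne (by rw [h0]; norm_num)
  rw [h0] at h1
  have hR0 : R 0 = 1 := by decide
  rw [hR0] at h1
  push_cast at h1
  refine ⟨(x : ℕ) / w, (y : ℕ) / w, ?_⟩
  field_simp
  linear_combination h1

/-- squares modulo 16 -/
def sqv : Fin 4 → ZMod (2 ^ 4) := ![0, 1, 4, 9]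

lemma sqv_spec : ∀ x : ZMod (2 ^ 4), ∃ e : Fin 4, x ^ 2 = sqv e ∧ (IsUnit x → e.val % 2 = 1) := by
  decide

set_option maxRecDepth 10000 in
lemma T_true_obstruction : ∀ i : Fin 8, ∀ j : Fin 8, T i j = true → ∀ a b c : Fin 4,
    (R i : ZMod (2 ^ 4)) * sqv a + (R j : ZMod (2 ^ 4)) * sqv b = sqv c →
      a.val % 2 = 0 ∧ b.val % 2 = 0 ∧ c.val % 2 = 0 := by
  decide

lemma not_split_of_T (i j : ℕ) (hi : i < 8) (hj : j < 8) (h : T i j = true) :
    ¬ Split (R i : ℚ_[2]) (R j : ℚ_[2]) := by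
  rintro ⟨X, Y, hXY⟩
  have hex : ∃ n : ℕ, ‖(2 : ℚ_[2]) ^ n * X‖ ≤ 1 ∧ ‖(2 : ℚ_[2]) ^ n * Y‖ ≤ 1 := by
    have h2 : ‖(2 : ℚ_[2])‖ = 1 / 2 := by
      have := Padic.norm_p (p := 2)
      simpa using this
    obtain ⟨n, hn⟩ := exists_pow_lt_of_lt_one (x := 1 / (‖X‖ + ‖Y‖ + 1)) (y := (1 / 2 : ℝ))
      (by positivity) (by norm_num)
    rw [lt_div_iff₀ (by positivity)] at hn
    refine ⟨n, ?_, ?_⟩
    · rw [norm_mul, norm_pow, h2]
      have : (1 / 2 : ℝ) ^ n * ‖X‖ ≤ (1 / 2) ^ n * (‖X‖ + ‖Y‖ + 1) := by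
        gcongr
        have := norm_nonneg Y
        linarith
      linarith
    · rw [norm_mul, norm_pow, h2]
      have : (1 / 2 : ℝ) ^ n * ‖Y‖ ≤ (1 / 2) ^ n * (‖X‖ + ‖Y‖ + 1) := by
        gcongr
        have := norm_nonneg X
        linarith
      linarith
  classical
  set n := Nat.find hex with hn
  obtain ⟨hX, hY⟩ := Nat.find_spec hex
  rw [← hn] at hX hY
  set x : ℤ_[2] := ⟨_, hX⟩ with hx
  set y : ℤ_[2] := ⟨_, hY⟩ with hy
  set z : ℤ_[2] := ((2 : ℕ) : ℤ_[2]) ^ n with hz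
  have hxyz : (R i : ℤ_[2]) * x ^ 2 + (R j : ℤ_[2]) * y ^ 2 = z ^ 2 := by
    have hx' : (x : ℚ_[2]) = 2 ^ n * X := rfl
    have hy' : (y : ℚ_[2]) = 2 ^ n * Y := rfl
    have hz' : (z : ℚ_[2]) = 2 ^ n := by
      rw [hz, PadicInt.coe_pow, PadicInt.coe_natCast, Nat.cast_ofNat]
    apply PadicInt.ext
    rw [PadicInt.coe_add, PadicInt.coe_mul, PadicInt.coe_mul, PadicInt.coe_pow, PadicInt.coe_pow,
      PadicInt.coe_pow, PadicInt.coe_intCast, PadicInt.coe_intCast, hx', hy', hz']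
    linear_combination ((2 : ℚ_[2]) ^ n) ^ 2 * hXY
  have hprim : IsUnit x ∨ IsUnit y ∨ IsUnit z := by
    by_cases hn0 : n = 0
    · right; right
      rw [hz, hn0, pow_zero]
      exact isUnit_one
    · obtain ⟨m, hm⟩ := Nat.exists_eq_succ_of_ne_zero hn0
      by_contra hcon
      push Not at hcon
      obtain ⟨hxn, hyn, -⟩ := hcon
      have hdiv : ∀ (W : ℚ_[2]) (x : ℤ_[2]), (x : ℚ_[2]) = (2 : ℚ_[2]) ^ n * W →
          ¬ IsUnit x → ‖(2 : ℚ_[2]) ^ m * W‖ ≤ 1 := by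
        intro W x hW hnu
        rw [PadicInt.not_isUnit_iff, PadicInt.norm_lt_one_iff_dvd] at hnu
        obtain ⟨q, hq⟩ := hnu
        have h1 : (2 : ℚ_[2]) ^ n * W = 2 * (q : ℚ_[2]) := by
          have := congrArg (fun x : ℤ_[2] => (x : ℚ_[2])) hq
          push_cast at this
          rw [← hW]
          exact this
        have h3 : (2 : ℚ_[2]) ^ m * W = q := by
          rw [hm, Nat.succ_eq_add_one, pow_succ] at h1
          have h2 : (2 : ℚ_[2]) ≠ 0 := two_ne_zero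
          apply mul_left_cancel₀ h2
          linear_combination h1
        rw [h3]
        exact q.2
      have hmlt : m < n := by omega
      exact Nat.find_min hex hmlt ⟨hdiv X x rfl hxn, hdiv Y y rfl hyn⟩
  obtain ⟨a, ha, hau⟩ := sqv_spec (PadicInt.toZModPow 4 x)
  obtain ⟨b, hb, hbu⟩ := sqv_spec (PadicInt.toZModPow 4 y)
  obtain ⟨c, hc, hcu⟩ := sqv_spec (PadicInt.toZModPow 4 z)
  have heq : (R i : ZMod (2 ^ 4)) * sqv a + (R j : ZMod (2 ^ 4)) * sqv b = sqv c := by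
    rw [← ha, ← hb, ← hc, ← map_pow, ← map_pow, ← map_pow, ← hxyz, map_add, map_mul, map_mul,
      map_intCast, map_intCast]
  obtain ⟨h1, h2, h3⟩ := T_true_obstruction ⟨i, hi⟩ ⟨j, hj⟩ h a b c heq
  rcases hprim with hu | hu | hu
  · have := hau (hu.map _); omega
  · have := hbu (hu.map _); omega
  · have := hcu (hu.map _); omega

/-- splitting only depends on square classes -/
lemma Split.congr {u v u' v' : ℚ_[2]} {a b : ℚ_[2]} (ha : a ≠ 0) (hb : b ≠ 0)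
    (hu : u = u' * a ^ 2) (hv : v = v' * b ^ 2) : Split u v ↔ Split u' v' := by
  constructor
  · rintro ⟨X, Y, h⟩
    exact ⟨a * X, b * Y, by rw [← h, hu, hv]; ring⟩
  · rintro ⟨X, Y, h⟩
    refine ⟨X / a, Y / b, ?_⟩
    rw [← h, hu, hv]
    field_simp

lemma split_iff_T (i j : ℕ) (hi : i < 8) (hj : j < 8) :
    Split (R i : ℚ_[2]) (R j : ℚ_[2]) ↔ T i j = false := by
  constructor
  · intro h
    by_contra hT
    rw [Bool.not_eq_false] at hT
    exact not_split_of_T i j hi hj hT h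
  · exact split_of_T i j hi hj

end P025H25
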