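import Vale.Agent.P025.H25.Symbol

/-! # Multiquadratic relations: evenness and descent of constants -/

namespace P025H25

universe u v w

variable {k : Type u} {K : Type v} [Field k] [Field K] [Algebra k K]

/-- If `c_j w_j² = ∏_{i ∈ S_j} (t - e_i)`, `i` occurs in some `S_j` and some `S_j` has an odd
number of elements, then `t - e_i` has even value at every place. -/
lemma isEven_of_relations {ι J : Type*} (t : K) (e : ι → k)
    (S : J → Finset ι) (c : J → k) (wf : J → K) (hc : ∀ j, c j ≠ 0)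
    (hinj : ∀ i i' j j', i ∈ S j → i' ∈ S j' → e i = e i' → i = i')
    (hw : ∀ j, algebraMap k K (c j) * wf j ^ 2 = ∏ i ∈ S j, (t - algebraMap k K (e i)))
    (hodd : ∃ j, Odd (S j).card) (i : ι) (j : J) (hij : i ∈ S j) :
    IsEven k (t - algebraMap k K (e i)) := by
  classical
  intro V hV
  set v := V.valuation with hv
  have hsqprod : ∀ j, v (wf j) ^ 2 = ∏ i ∈ S j, v (t - algebraMap k K (e i)) := by
    intro j
    have h1 := congrArg v (hw j)
    rw [map_mul, hV.val_const (hc j), one_mul, map_pow, map_prod] at h1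
    exact h1
  rcases le_or_gt (v t) 1 with hfin | hpole
  · have hle : v (t - algebraMap k K (e i)) ≤ 1 :=
      (v.map_sub _ _).trans (max_le hfin (hV.val_const_le _))
    by_cases h1 : v (t - algebraMap k K (e i)) = 1
    · exact ⟨1, by rw [h1, map_one, one_pow]⟩
    have hlt : v (t - algebraMap k K (e i)) < 1 := lt_of_le_of_ne hle h1
    refine ⟨wf j, ?_⟩
    rw [hsqprod j, ← Finset.mul_prod_erase _ _ hij]
    rw [Finset.prod_eq_one, mul_one]
    intro i' hi'
    rw [Finset.mem_erase] at hi'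
    have hne : e i - e i' ≠ 0 := by
      intro h0
      exact hi'.1 (hinj i i' j j hij hi'.2 (sub_eq_zero.1 h0)).symm
    have h2 : t - algebraMap k K (e i') =
        (t - algebraMap k K (e i)) + algebraMap k K (e i - e i') := by
      rw [map_sub]; ring
    rw [h2, Valuation.map_add_eq_of_lt_right, hV.val_const hne]
    rw [hV.val_const hne]; exact hlt
  · have hval : ∀ i', v (t - algebraMap k K (e i')) = v t := by
      intro i'
      rw [Valuation.map_sub_eq_of_lt_left]
      exact lt_of_le_of_lt (hV.val_const_le _) hpole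
    obtain ⟨j0, m, hm⟩ := hodd
    refine ⟨wf j0 / t ^ m, ?_⟩
    have ht0 : v t ≠ 0 := by
      intro h0; rw [h0] at hpole; exact absurd hpole (not_lt.2 zero_le)
    have h1 := hsqprod j0
    rw [Finset.prod_congr rfl (fun i' _ => hval i'), Finset.prod_const, hm] at h1
    rw [hval i, map_div₀, map_pow, div_pow, h1, ← pow_mul, mul_comm m 2, pow_succ]
    field_simp

variable [CharZero k] {s : Gal(constClosure k K/k) →* Gal(maxUnr k K/K)}

lemma exists_eta (hs : IsSection k K s) {ι : Type*} (c : k) (hc : c ≠ 0) (u : K) (S : Finset ι)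
    (g : ι → K) (x : ι → k) (y : ι → maxUnr k K) (hfix : ∀ i ∈ S, ∀ σ, s σ (y i) = y i)
    (hg : ∀ i ∈ S, algebraMap K (maxUnr k K) (g i) =
      algebraMap k (maxUnr k K) (x i) * y i ^ 2)
    (hy0 : ∀ i ∈ S, y i ≠ 0) (hu : algebraMap k K c * u ^ 2 = ∏ i ∈ S, g i) :
    ∃ η : k, algebraMap K (maxUnr k K) u =
      algebraMap k (maxUnr k K) η * ∏ i ∈ S, y i ∧ c * η ^ 2 = ∏ i ∈ S, x i := by
  set P : maxUnr k K := ∏ i ∈ S, y i with hP
  have hP0 : P ≠ 0 := Finset.prod_ne_zero_iff.2 hy0
  have hcT : algebraMap k (maxUnr k K) c ≠ 0 := (map_ne_zero _).2 hc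
  have h1 : algebraMap k (maxUnr k K) c * (algebraMap K (maxUnr k K) u) ^ 2 =
      algebraMap k (maxUnr k K) (∏ i ∈ S, x i) * P ^ 2 := by
    have h2 := congrArg (algebraMap K (maxUnr k K)) hu
    rw [map_mul, map_pow, map_prod, ← IsScalarTower.algebraMap_apply] at h2
    rw [h2, Finset.prod_congr rfl hg, Finset.prod_mul_distrib, hP, map_prod, Finset.prod_pow]
  set ρ : maxUnr k K := algebraMap K (maxUnr k K) u / P with hρ
  have hρ2 : ρ ^ 2 = algebraMap k (maxUnr k K) ((∏ i ∈ S, x i) / c) := by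
    rw [hρ, div_pow, map_div₀, div_eq_div_iff (pow_ne_zero 2 hP0) hcT]
    linear_combination h1
  have hρfix : ∀ σ, s σ ρ = ρ := by
    intro σ
    rw [hρ, map_div₀, AlgEquiv.commutes, hP, map_prod]
    congr 1
    exact Finset.prod_congr rfl (fun i hi => hfix i hi σ)
  have hρalg : IsAlgebraic k (ρ : AlgebraicClosure K) := by
    have h2 : IsIntegral k ((ρ : AlgebraicClosure K) ^ 2) := by
      have : (ρ : AlgebraicClosure K) ^ 2 =
          algebraMap k (AlgebraicClosure K) ((∏ i ∈ S, x i) / c) :=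
        congrArg (fun z : maxUnr k K => (z : AlgebraicClosure K)) hρ2
      rw [this]; exact isIntegral_algebraMap
    exact (IsIntegral.of_pow (by norm_num) h2).isAlgebraic
  obtain ⟨η, hη⟩ := fixed_algebraic hs ρ hρfix hρalg
  refine ⟨η, ?_, ?_⟩
  · rw [← hη, hρ, div_mul_cancel₀ _ hP0]
  · rw [hη, ← map_pow] at hρ2
    have h3 := (algebraMap k (maxUnr k K)).injective hρ2
    rw [h3, mul_div_cancel₀ _ hc]

end P025H25
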