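import Vale.Agent.P025.H25.Check
import Vale.Agent.P025.H25.Relations

/-! # The Kummer shadow of a section over `ℚ_[2]` -/

namespace P025H25

universe v

lemma R_mul : ∀ i : Fin 8, ∀ j : Fin 8, (i.val ^^^ j.val < 8) ∧
    ∃ S : Fin 11, S.val ≠ 0 ∧ R i * R j = R (i.val ^^^ j.val) * (S.val : ℤ) ^ 2 := by
  decide +kernel

lemma class_div (x : ℚ_[2]) (i : ℕ) (hi : i < 8) (w : ℚ_[2]) (hw : w ≠ 0)
    (hx : x = R i * w ^ 2) (m : ℤ) (hm : m ≠ 0) (hc : cls m < 8) :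
    (i ^^^ cls m < 8) ∧ ∃ c : ℚ_[2], c ≠ 0 ∧ x / m = R (i ^^^ cls m) * c ^ 2 := by
  obtain ⟨w', hw', hm'⟩ := cls_spec m hm hc
  obtain ⟨hlt, S, hS0, hS⟩ := R_mul ⟨i, hi⟩ ⟨cls m, hc⟩
  refine ⟨hlt, ?_⟩
  have hS' : (R i : ℚ_[2]) * R (cls m) = R (i ^^^ cls m) * (S.val : ℚ_[2]) ^ 2 := by
    exact_mod_cast hS
  have hR : (R (cls m) : ℚ_[2]) ≠ 0 := R_cast_ne_zero _
  have hS0' : (S.val : ℚ_[2]) ≠ 0 := by exact_mod_cast hS0
  refine ⟨S.val * w / (R (cls m) * w'), by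
    apply div_ne_zero
    · exact mul_ne_zero hS0' hw
    · exact mul_ne_zero hR hw', ?_⟩
  rw [hx, hm']
  field_simp
  linear_combination hS'

lemma T_nondeg : ∀ i : Fin 8, ∀ j : Fin 8, (∀ l : Fin 8, T i l = T j l) → i = j := by
  decide +kernel

/-- the classes are independent -/
lemma R_class_inj (i j : ℕ) (hi : i < 8) (hj : j < 8) (w : ℚ_[2]) (hw : w ≠ 0)
    (h : (R i : ℚ_[2]) = R j * w ^ 2) : i = j := by
  have h1 : ∀ l : Fin 8, T i l = T j l := by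
    intro l
    have h2 : Split (R i : ℚ_[2]) (R l : ℚ_[2]) ↔ Split (R j : ℚ_[2]) (R l : ℚ_[2]) :=
      Split.congr hw one_ne_zero h (by ring)
    rw [split_iff_T _ _ hi l.2, split_iff_T _ _ hj l.2] at h2
    cases h3 : T i l <;> cases h4 : T j l <;> simp_all
  exact congrArg Fin.val (T_nondeg ⟨i, hi⟩ ⟨j, hj⟩ h1)

lemma split_iff_okK (a b : ℤ) (hab : a ≠ b) (hc1 : cls (b - a) < 8) (hc2 : cls (a - b) < 8)
    (xa xb : ℚ_[2]) (ra rb : ℕ) (hra : ra < 8) (hrb : rb < 8) (wa wb : ℚ_[2]) (hwa : wa ≠ 0)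
    (hwb : wb ≠ 0) (hxa : xa = R ra * wa ^ 2) (hxb : xb = R rb * wb ^ 2) :
    Split (xa / ((b : ℚ_[2]) - a)) (xb / ((a : ℚ_[2]) - b)) ↔ okK false a ra b rb = true := by
  have h1 : b - a ≠ 0 := by omega
  have h2 : a - b ≠ 0 := by omega
  obtain ⟨hl1, c1, hc10, he1⟩ := class_div xa ra hra wa hwa hxa _ h1 hc1
  obtain ⟨hl2, c2, hc20, he2⟩ := class_div xb rb hrb wb hwb hxb _ h2 hc2
  have he1' : xa / ((b : ℚ_[2]) - a) = R (ra ^^^ cls (b - a)) * c1 ^ 2 := by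
    rw [← he1]; push_cast; rfl
  have he2' : xb / ((a : ℚ_[2]) - b) = R (rb ^^^ cls (a - b)) * c2 ^ 2 := by
    rw [← he2]; push_cast; rfl
  rw [Split.congr hc10 hc20 he1' he2', split_iff_T _ _ hl1 hl2]
  unfold okK
  simp

/-- product of classes -/
lemma prod_class (x w : ℤ → ℚ_[2]) (r : ℤ → ℕ) (S : List ℤ)
    (h : ∀ a ∈ S, r a < 8 ∧ w a ≠ 0 ∧ x a = R (r a) * w a ^ 2) :
    xorS r S < 8 ∧ ∃ W : ℚ_[2], W ≠ 0 ∧ (S.map x).prod = R (xorS r S) * W ^ 2 := by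
  induction S with
  | nil =>
    refine ⟨by simp [xorS], 1, one_ne_zero, ?_⟩
    have h0 : R 0 = 1 := by decide
    simp [xorS, h0]
  | cons a S ih =>
    obtain ⟨hlt, W, hW, hprod⟩ := ih (fun b hb => h b (by simp [hb]))
    obtain ⟨hra, hwa, hxa⟩ := h a (by simp)
    obtain ⟨hlt', Q, hQ0, hQ⟩ := R_mul ⟨r a, hra⟩ ⟨xorS r S, hlt⟩
    have hQ' : (R (r a) : ℚ_[2]) * R (xorS r S) =
        R (r a ^^^ xorS r S) * (Q.val : ℚ_[2]) ^ 2 := by exact_mod_cast hQ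
    have hQ0' : (Q.val : ℚ_[2]) ≠ 0 := by exact_mod_cast hQ0
    refine ⟨hlt', Q.val * w a * W, mul_ne_zero (mul_ne_zero hQ0' hwa) hW, ?_⟩
    rw [List.map_cons, List.prod_cons, hprod, hxa]
    show _ = (R (r a ^^^ xorS r S) : ℚ_[2]) * _
    linear_combination (w a ^ 2 * W ^ 2) * hQ'

variable {K : Type v} [Field K] [Algebra ℚ_[2] K]
  {s : Gal(constClosure ℚ_[2] K/ℚ_[2]) →* Gal(maxUnr ℚ_[2] K/K)}

/-- the square classes attached to a section solve the pairwise relations -/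
theorem section_data (hs : IsSection ℚ_[2] K s) (t : K)
    (ht : ∀ z : ℚ_[2], t ≠ algebraMap ℚ_[2] K z) (A : List ℤ) (hA : A.Nodup)
    (hcls : ∀ a ∈ A, ∀ b ∈ A, a ≠ b → cls (b - a) < 8)
    (heven : ∀ a ∈ A, IsEven ℚ_[2] (t - (a : K))) :
    ∃ (κ : Bool) (r : ℤ → ℕ) (x w : ℤ → ℚ_[2]) (y : ℤ → maxUnr ℚ_[2] K),
      A.map r ∈ sols κ A ∧ ∀ a ∈ A, r a < 8 ∧ w a ≠ 0 ∧ x a = R (r a) * w a ^ 2 ∧
        (∀ σ, s σ (y a) = y a) ∧ y a ≠ 0 ∧
        algebraMap K (maxUnr ℚ_[2] K) (t - (a : K)) =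
          algebraMap ℚ_[2] (maxUnr ℚ_[2] K) (x a) * y a ^ 2 := by
  have hev : ∀ a ∈ A, IsEven ℚ_[2] (t - algebraMap ℚ_[2] K (a : ℚ_[2])) := by
    intro a ha
    rw [map_intCast]
    exact heven a ha
  have h1 : ∀ a ∈ A, ∃ (x : ℚ_[2]) (y : maxUnr ℚ_[2] K), x ≠ 0 ∧ (∀ σ, s σ y = y) ∧
      algebraMap K (maxUnr ℚ_[2] K) (t - algebraMap ℚ_[2] K (a : ℚ_[2])) =
        algebraMap ℚ_[2] (maxUnr ℚ_[2] K) x * y ^ 2 := by
    intro a ha
    refine exists_class hs _ ?_ (hev a ha)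
    intro h0
    exact ht _ (sub_eq_zero.1 h0)
  choose! x y hx0 hy hxy using h1
  have h2 : ∀ a ∈ A, ∃ i < 8, ∃ w : ℚ_[2], w ≠ 0 ∧ x a = R i * w ^ 2 := fun a ha =>
    exists_class_Q2 (x a) (hx0 a ha)
  choose! r hr w hw0 hw using h2
  have hab : ∀ a b : ℤ, a ≠ b → (b : ℚ_[2]) - (a : ℚ_[2]) ≠ 0 := by
    intro a b h h0
    apply h
    have : (b : ℚ_[2]) = a := sub_eq_zero.1 h0
    exact_mod_cast this.symm
  have htransfer : ∀ a ∈ A, ∀ b ∈ A, ∀ c ∈ A, ∀ d ∈ A, a ≠ b → c ≠ d →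
      okK false c (r c) d (r d) = true → okK false a (r a) b (r b) = true := by
    intro a ha b hb c hc d hd h h' hok
    rw [← split_iff_okK a b h (hcls a ha b hb h) (hcls b hb a ha h.symm) (x a) (x b) (r a) (r b)
      (hr a ha) (hr b hb) (w a) (w b) (hw0 a ha) (hw0 b hb) (hw a ha) (hw b hb)]
    rw [← split_iff_okK c d h' (hcls c hc d hd h') (hcls d hd c hc h'.symm) (x c) (x d) (r c)
      (r d) (hr c hc) (hr d hd) (w c) (w d) (hw0 c hc) (hw0 d hd) (hw c hc) (hw d hd)] at hok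
    exact split_transfer hs t ht a b c d (x a) (x b) (x c) (x d) (hx0 a ha) (hx0 b hb)
      (hx0 c hc) (hx0 d hd) (hab a b h) (hab c d h') (y a) (y b) (y c) (y d)
      (hy a ha) (hy b hb) (hy c hc) (hy d hd) (hev a ha) (hev b hb) (hev c hc) (hev d hd)
      (hxy a ha) (hxy b hb) (hxy c hc) (hxy d hd) hok
  have hκ : ∃ κ : Bool, ∀ a ∈ A, ∀ b ∈ A, a ≠ b → okK κ a (r a) b (r b) = true := by
    by_cases hex : ∃ c ∈ A, ∃ d ∈ A, c ≠ d ∧ okK false c (r c) d (r d) = true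
    · obtain ⟨c, hc, d, hd, hcd, hok⟩ := hex
      exact ⟨false, fun a ha b hb hab => htransfer a ha b hb c hc d hd hab hcd hok⟩
    · push Not at hex
      refine ⟨true, fun a ha b hb hab => ?_⟩
      have hne := hex a ha b hb hab
      unfold okK at hne ⊢
      revert hne
      cases T (r a ^^^ cls (b - a)) (r b ^^^ cls (a - b)) <;> simp
  obtain ⟨κ, hκ⟩ := hκ
  refine ⟨κ, r, x, w, y, map_mem_sols κ r A hA hr hκ, fun a ha =>
    ⟨hr a ha, hw0 a ha, hw a ha, hy a ha, ?_, ?_⟩⟩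
  · intro h0
    have h3 := hxy a ha
    rw [h0] at h3
    have h4 : algebraMap K (maxUnr ℚ_[2] K) (t - algebraMap ℚ_[2] K (a : ℚ_[2])) = 0 := by
      rw [h3]; ring
    rw [map_eq_zero] at h4
    exact ht _ (sub_eq_zero.1 h4)
  · have h3 := hxy a ha
    rw [map_intCast] at h3
    exact h3

/-- a multiplicative relation restricts the classes -/
theorem relation_class (hs : IsSection ℚ_[2] K s) (t : K) (S : List ℤ) (hS : S.Nodup)
    (r : ℤ → ℕ) (x w : ℤ → ℚ_[2]) (y : ℤ → maxUnr ℚ_[2] K)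
    (h : ∀ a ∈ S, r a < 8 ∧ w a ≠ 0 ∧ x a = R (r a) * w a ^ 2 ∧
        (∀ σ, s σ (y a) = y a) ∧ y a ≠ 0 ∧
        algebraMap K (maxUnr ℚ_[2] K) (t - (a : K)) =
          algebraMap ℚ_[2] (maxUnr ℚ_[2] K) (x a) * y a ^ 2)
    (i : ℕ) (hi : i < 8) (u : K)
    (hu : (R i : K) * u ^ 2 = (S.map (fun a : ℤ => t - (a : K))).prod) :
    xorS r S = i := by
  obtain ⟨hlt, W, hW, hprod⟩ := prod_class x w r S (fun a ha => ⟨(h a ha).1, (h a ha).2.1,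
    (h a ha).2.2.1⟩)
  have hRi : (R i : ℚ_[2]) ≠ 0 := R_cast_ne_zero i
  obtain ⟨η, -, hη⟩ := exists_eta hs (R i : ℚ_[2]) hRi u S.toFinset (fun a : ℤ => t - (a : K)) x y
    (fun a ha => (h a (List.mem_toFinset.1 ha)).2.2.2.1)
    (fun a ha => (h a (List.mem_toFinset.1 ha)).2.2.2.2.2)
    (fun a ha => (h a (List.mem_toFinset.1 ha)).2.2.2.2.1)
    (by
      rw [map_intCast, hu, List.prod_toFinset _ hS])
  rw [List.prod_toFinset _ hS, hprod] at hη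
  have hη0 : η ≠ 0 := by
    intro h0
    rw [h0] at hη
    have h3 : (R (xorS r S) : ℚ_[2]) * W ^ 2 ≠ 0 :=
      mul_ne_zero (R_cast_ne_zero _) (pow_ne_zero 2 hW)
    apply h3
    rw [← hη]; ring
  apply R_class_inj _ _ hlt hi (η / W) (div_ne_zero hη0 hW)
  field_simp
  linear_combination -hη

end P025H25
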