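import Mathlib

/-!
# Function field language for the p-adic section conjecture: the notions used in the statement

`k` is a base field, `K` a field containing `k` (in the applications: a function field of one
variable over `k`, the function field of a smooth projective curve `X/k`).
-/

open IntermediateField

namespace P025H25

universe u v w

/-- A place of the field `E` over `k`: a valuation subring of `E` containing `k`, different
from `E` itself. -/
structure IsPlace (k : Type u) (E : Type v) [Field k] [Field E] [Algebra k E]
    (V : ValuationSubring E) : Prop where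
  const_mem : ∀ c : k, algebraMap k E c ∈ V
  ne_top : V ≠ ⊤

/-- A place of `E` over `k` with residue field `k`. -/
structure IsRatPlace (k : Type u) (E : Type v) [Field k] [Field E] [Algebra k E]
    (V : ValuationSubring E) : Prop extends IsPlace k E V where
  residue : ∀ x ∈ V, ∃ c : k, V.valuation (x - algebraMap k E c) < 1

/-- `E/K` is unramified at all places of `E` over `k`: every value of a place `V` of `E`
is already the value of an element of `K`. -/
def IsUnramified (k : Type u) (K : Type v) (E : Type w) [Field k] [Field K] [Field E]
    [Algebra k E] [Algebra K E] : Prop :=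
  ∀ V : ValuationSubring E, IsPlace k E V →
    ∀ x : E, ∃ y : K, V.valuation (algebraMap K E y) = V.valuation x

/-- The maximal unramified extension of `K` in its algebraic closure: the compositum of all
finite extensions of `K` that are unramified at all places over `k`. -/
noncomputable def maxUnr (k : Type u) (K : Type v) [Field k] [Field K] [Algebra k K] :
    IntermediateField K (AlgebraicClosure K) :=
  sSup {E : IntermediateField K (AlgebraicClosure K) |
    FiniteDimensional K E ∧ IsUnramified k K E}

/-- The algebraic closure of `k` in the algebraic closure of `K`. -/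
noncomputable abbrev constClosure (k : Type u) (K : Type v) [Field k] [Field K] [Algebra k K] :
    IntermediateField k (AlgebraicClosure K) :=
  algebraicClosure k (AlgebraicClosure K)

/-- The Galois group `Gal(L / F)` of an intermediate field `L` of `Ω / F`. -/
def GalOf {F : Type u} {Ω : Type v} [Field F] [Field Ω] [Algebra F Ω]
    (L : IntermediateField F Ω) : Type v := L ≃ₐ[F] L

section

variable {F : Type u} {Ω : Type v} [Field F] [Field Ω] [Algebra F Ω] (L : IntermediateField F Ω)

noncomputable instance GalOf.instGroup : Group (GalOf L) := AlgEquiv.aut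

/-- the Krull topology -/
noncomputable instance GalOf.instTop : TopologicalSpace (GalOf L) := krullTopology F L

end

/-- `x` lies in `L` and `σ` maps it to `y`. -/
def GalOf.Maps {F : Type u} {Ω : Type v} [Field F] [Field Ω] [Algebra F Ω]
    {L : IntermediateField F Ω} (σ : GalOf L) (x y : Ω) : Prop :=
  ∃ x' : L, (x' : Ω) = x ∧ (AlgEquiv.toEquiv σ x' : Ω) = y

/-- A section of `Gal(maxUnr k K / K) → Gal(constClosure k K / k)`: a continuous homomorphism
such that the image of `σ` acts on constants as `σ`. -/
structure Section (k : Type u) (K : Type v) [Field k] [Field K] [Algebra k K] where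
  hom : GalOf (constClosure k K) →* GalOf (maxUnr k K)
  cont : Continuous hom
  lifts : ∀ (σ : GalOf (constClosure k K)) (x y : AlgebraicClosure K),
    σ.Maps x y → x ∈ maxUnr k K → (hom σ).Maps x y

/-- `f` has even value at every place of `F` over `k`. -/
def IsEven (k : Type u) {F : Type v} [Field k] [Field F] [Algebra k F] (f : F) : Prop :=
  ∀ V : ValuationSubring F, IsPlace k F V → ∃ y : F, V.valuation f = V.valuation y ^ 2

/-- The conic `u X² + v Y² = 1` has a rational point. -/
def Split {k : Type u} [Field k] (u v : k) : Prop := ∃ X Y : k, u * X ^ 2 + v * Y ^ 2 = 1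

/-- `t` is not a constant. -/
def NonConst (k : Type u) {K : Type v} [Field k] [Field K] [Algebra k K] (t : K) : Prop :=
  ∀ z : k, t ≠ algebraMap k K z

/-- The embedding of `K` in its algebraic closure. -/
noncomputable def emb {K : Type v} [Field K] (f : K) : AlgebraicClosure K :=
  algebraMap K (AlgebraicClosure K) f

/-- `y` lies in the maximal unramified extension and is fixed by the section. -/
def Section.Fixes {k : Type u} {K : Type v} [Field k] [Field K] [Algebra k K]
    (s : Section k K) (y : AlgebraicClosure K) : Prop :=
  ∀ σ, (s.hom σ).Maps y y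

/-- `c_j w_j² = ∏_{a ∈ S_j} (t - a)` for all `j`, with `c_j ≠ 0`. -/
def OnCurve {k : Type u} {K : Type v} [Field k] [Field K] [Algebra k K] {J : Type w}
    (S : J → Finset ℤ) (c : J → k) (t : K) (wf : J → K) : Prop :=
  ∀ j, c j ≠ 0 ∧ algebraMap k K (c j) * wf j ^ 2 = ∏ a ∈ S j, (t - (a : K))

/-- The section `s` looks like the `k`-rational point `(z, η)` of the curve
`c_j w_j² = ∏_{a ∈ S_j} (t - a)`: for suitable `y_a` fixed by `s` one has
`t - a = (z - a) y_a²` for `a ∈ A`, and `w_j = η_j ∏_{a ∈ S_j} y_a`. -/
def LooksLikePoint {k : Type u} {K : Type v} [Field k] [Field K] [Algebra k K]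
    (s : Section k K) {J : Type w}
    (A : Finset ℤ) (S : J → Finset ℤ) (c : J → k) (t : K) (wf : J → K) : Prop :=
  ∃ (z : k) (η : J → k) (y : ℤ → AlgebraicClosure K),
    (∀ a ∈ A, z ≠ a ∧ s.Fixes (y a) ∧
      emb (t - (a : K)) = emb (algebraMap k K (z - a)) * y a ^ 2) ∧
    OnCurve S c z η ∧
    ∀ j, emb (wf j) = emb (algebraMap k K (η j)) * ∏ a ∈ S j, y a

/-- The finite set `A` is the union of the `S_j` and some `S_j` has an odd number of
elements. -/
def IsBranchSet (A : Finset ℤ) {J : Type w} (S : J → Finset ℤ) : Prop :=
  (∀ a, a ∈ A ↔ ∃ j, a ∈ S j) ∧ ∃ j, Odd (S j).card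

/-- Symbol rigidity: the section attaches to the functions `t - e_i` constants `x_i`, and the
conics `x_i / (e_j - e_i) X² + x_j / (e_i - e_j) Y² = 1` either all have a point or none of them
has. -/
def SymbolRigidity {k : Type u} {K : Type v} [Field k] [Field K] [Algebra k K]
    (s : Section k K) {ι : Type w} (e : ι → k) (t : K) :
    Prop :=
  ∃ (x : ι → k) (y : ι → AlgebraicClosure K),
    (∀ i, x i ≠ 0 ∧ s.Fixes (y i) ∧
      emb (t - algebraMap k K (e i)) = emb (algebraMap k K (x i)) * y i ^ 2) ∧
    ∀ i j l m, e i ≠ e j → e l ≠ e m →
      (Split (x l / (e m - e l)) (x m / (e l - e m)) ↔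
        Split (x i / (e j - e i)) (x j / (e i - e j)))

/-- Sections look like points: for every section and every non-constant `t` with relations
`c_j w_j² = ∏_{a ∈ S_j} (t - a)`, `S_j ⊆ A`, in `K`, the section looks like a `k`-rational point
of the curve defined by these, provided that all `t - a`, `a ∈ A`, are even or that `A` is the
union of the `S_j` and some `S_j` has an odd number of elements. -/
def SectionsLookLikePoints (k : Type u) (K : Type v) [Field k] [Field K] [Algebra k K]
    (A : Finset ℤ) : Prop :=
  ∀ (s : Section k K) (t : K) (J : Type w) (S : J → Finset ℤ) (c : J → k) (wf : J → K),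
    NonConst k t → (∀ j, S j ⊆ A) → OnCurve S c t wf →
      ((∀ a ∈ A, IsEven k (t - (a : K))) ∨ IsBranchSet A S) → LooksLikePoint s A S c t wf

/-- If `K = k(t, w_j)` with `c_j w_j² = ∏_{a ∈ S_j} (t - a)`, `A` is the union of the `S_j` and
some `S_j` has an odd number of elements, then the existence of a section implies the existence
of a `k`-rational place. -/
def SectionGivesPlace (k : Type u) (K : Type v) [Field k] [Field K] [Algebra k K]
    (A : Finset ℤ) : Prop :=
  ∀ (t : K) (J : Type w) (S : J → Finset ℤ) (c : J → k) (wf : J → K),
    Transcendental k t → IntermediateField.adjoin k ({t} ∪ Set.range wf) = ⊤ →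
    OnCurve S c t wf → IsBranchSet A S → Nonempty (Section k K) →
      ∃ V : ValuationSubring K, IsRatPlace k K V

end P025H25
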