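import Vale.Agent.P025.H25.Kummer

open IntermediateField

namespace P025H25

universe u v w

variable {k : Type u} {K : Type v} [Field k] [Field K] [Algebra k K]

lemma Split.symm {u v : k} (h : Split u v) : Split v u := by
  obtain ⟨X, Y, h⟩ := h
  exact ⟨Y, X, by rw [add_comm]; exact h⟩

lemma split_of_sq {u v : k} (hu : u ≠ 0) (h : ∃ e : k, u = e ^ 2) : Split u v := by
  obtain ⟨e, he⟩ := h
  have he0 : e ≠ 0 := by
    intro h0; apply hu; rw [he, h0]; ring
  refine ⟨e⁻¹, 0, ?_⟩
  rw [he]
  field_simp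
  ring

lemma split_of_norm (h2 : (2 : k) ≠ 0) {u v : k} (hu : u ≠ 0) (hv : v ≠ 0)
    (h : ∃ e0 e1 : k, v = e0 ^ 2 - u * e1 ^ 2) : Split u v := by
  obtain ⟨e0, e1, h⟩ := h
  by_cases h0 : e0 = 0
  · have he1 : e1 ≠ 0 := by
      intro h1; apply hv; rw [h, h0, h1]; ring
    refine ⟨(1 + 1 / u) / 2, (1 - 1 / u) / (2 * e1), ?_⟩
    rw [h, h0]
    field_simp
    ring
  · refine ⟨e1 / e0, 1 / e0, ?_⟩
    rw [h]
    field_simp
    ring

section even

variable {F : Type w} [Field F] [Algebra k F]

lemma IsPlace.val_const_le {V : ValuationSubring F} (hV : IsPlace k F V) (c : k) :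
    V.valuation (algebraMap k F c) ≤ 1 :=
  (V.valuation_le_one_iff _).2 (hV.const_mem c)

lemma isEven_tangent (h2 : (2 : k) ≠ 0) (t θ ya yb yc yd : F) (a b c d xa xb xc xd : k)
    (hxa : xa ≠ 0) (hxb : xb ≠ 0) (hxc : xc ≠ 0) (hxd : xd ≠ 0) (hab : b - a ≠ 0)
    (hcd : d - c ≠ 0)
    (ha : t - algebraMap k F a = algebraMap k F xa * ya ^ 2)
    (hb : t - algebraMap k F b = algebraMap k F xb * yb ^ 2)
    (hc : t - algebraMap k F c = algebraMap k F xc * yc ^ 2)
    (hd : t - algebraMap k F d = algebraMap k F xd * yd ^ 2)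
    (ua ub uc ud : k) (hua : ua * (b - a) = xa) (hub : ub * (a - b) = xb)
    (huc : uc * (d - c) = xc) (hud : ud * (c - d) = xd)
    (hθ : θ ^ 2 = algebraMap k F ua) (X Y : k) (hXY : uc * X ^ 2 + ud * Y ^ 2 = 1) (hY : Y ≠ 0)
    (ℓ : F) (hℓ : ℓ = 1 - algebraMap k F (uc * X) * yc - algebraMap k F (ud * Y) * yd)
    (hℓ0 : ℓ ≠ 0) :
    IsEven k ((1 - θ * ya) / ℓ) := by
  have hua0 : ua ≠ 0 := fun h => hxa (by rw [← hua, h, zero_mul])
  have hub0 : ub ≠ 0 := fun h => hxb (by rw [← hub, h, zero_mul])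
  have huc0 : uc ≠ 0 := fun h => hxc (by rw [← huc, h, zero_mul])
  have hud0 : ud ≠ 0 := fun h => hxd (by rw [← hud, h, zero_mul])
  have hba : (algebraMap k F (b - a)) ≠ 0 := (map_ne_zero _).2 hab
  have hdc : (algebraMap k F (d - c)) ≠ 0 := (map_ne_zero _).2 hcd
  -- the two conics
  have hAB : algebraMap k F ua * ya ^ 2 + algebraMap k F ub * yb ^ 2 = 1 := by
    apply mul_left_cancel₀ hba
    rw [← hua, map_mul] at ha
    rw [← hub, map_mul] at hb
    rw [map_sub] at ha hb ⊢
    linear_combination hb - ha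
  have hCD : algebraMap k F uc * yc ^ 2 + algebraMap k F ud * yd ^ 2 = 1 := by
    apply mul_left_cancel₀ hdc
    rw [← huc, map_mul] at hc
    rw [← hud, map_mul] at hd
    rw [map_sub] at hc hd ⊢
    linear_combination hd - hc
  have hXY' : algebraMap k F uc * algebraMap k F X ^ 2 +
      algebraMap k F ud * algebraMap k F Y ^ 2 = 1 := by
    rw [← map_pow, ← map_pow, ← map_mul, ← map_mul, ← map_add, hXY, map_one]
  rw [map_mul, map_mul] at hℓ
  intro V hV
  set v := V.valuation with hv
  have hvθ : v θ = 1 := by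
    have h1 : v θ ^ 2 = 1 := by rw [← map_pow, hθ, hV.val_const hua0]
    exact (pow_eq_one_iff_of_nonneg zero_le two_ne_zero).1 h1
  -- squares of `y`
  have hsq : ∀ (z : F) (e x : k), x ≠ 0 → t - algebraMap k F e = algebraMap k F x * z ^ 2 →
      v z ^ 2 = v (t - algebraMap k F e) := by
    intro z e x hx h
    rw [h, map_mul, hV.val_const hx, one_mul, map_pow]
  rcases le_or_gt (v t) 1 with hfin | hpole
  · -- finite places
    have hy1 : ∀ (z : F) (e x : k), x ≠ 0 → t - algebraMap k F e = algebraMap k F x * z ^ 2 →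
        v z ≤ 1 := by
      intro z e x hx h
      have h1 : v z ^ 2 ≤ 1 := by
        rw [hsq z e x hx h]
        refine (v.map_sub _ _).trans ?_
        exact max_le hfin (hV.val_const_le e)
      exact (pow_le_one_iff_of_nonneg zero_le two_ne_zero).1 h1
    have hya := hy1 ya a xa hxa ha
    have hyb := hy1 yb b xb hxb hb
    have hyc := hy1 yc c xc hxc hc
    have hyd := hy1 yd d xd hxd hd
    -- first factor
    have h1 : ∃ z1 : F, v (1 - θ * ya) = v z1 ^ 2 := by
      have hle : v (1 - θ * ya) ≤ 1 := by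
        refine (v.map_sub _ _).trans ?_
        rw [map_one, map_mul, hvθ, one_mul]
        exact max_le le_rfl hya
      have hle' : v (1 + θ * ya) ≤ 1 := by
        refine (v.map_add _ _).trans ?_
        rw [map_one, map_mul, hvθ, one_mul]
        exact max_le le_rfl hya
      by_cases h1 : v (1 - θ * ya) = 1
      · exact ⟨1, by rw [h1, map_one, one_pow]⟩
      have hlt : v (1 - θ * ya) < 1 := lt_of_le_of_ne hle h1
      have h3 : v (1 + θ * ya) = 1 := by
        by_contra hne
        have hlt' : v (1 + θ * ya) < 1 := lt_of_le_of_ne hle' hne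
        have h4 := v.map_add_lt hlt hlt'
        have h5 : (1 - θ * ya) + (1 + θ * ya) = 2 := by ring
        rw [h5, hV.val_two h2] at h4
        exact lt_irrefl _ h4
      refine ⟨yb, ?_⟩
      have h6 : (1 - θ * ya) * (1 + θ * ya) = algebraMap k F ub * yb ^ 2 := by
        linear_combination (-1 : F) * hAB - ya ^ 2 * hθ
      have h7 := congrArg v h6
      rw [map_mul, h3, mul_one, map_mul, hV.val_const hub0, one_mul, map_pow] at h7
      exact h7
    -- second factor
    have h2' : ∃ z2 : F, v ℓ = v z2 ^ 2 := by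
      have hc1 : v (algebraMap k F uc * algebraMap k F X * yc) ≤ 1 := by
        rw [map_mul, map_mul]
        exact mul_le_one' (mul_le_one' (hV.val_const_le _) (hV.val_const_le _)) hyc
      have hd1 : v (algebraMap k F ud * algebraMap k F Y * yd) ≤ 1 := by
        rw [map_mul, map_mul]
        exact mul_le_one' (mul_le_one' (hV.val_const_le _) (hV.val_const_le _)) hyd
      have hℓ1 : v ℓ ≤ 1 := by
        rw [hℓ]
        refine (v.map_sub _ _).trans (max_le ?_ hd1)
        refine (v.map_sub _ _).trans (max_le ?_ hc1)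
        rw [map_one]
      by_cases h3 : v ℓ = 1
      · exact ⟨1, by rw [h3, map_one, one_pow]⟩
      have hlt : v ℓ < 1 := lt_of_le_of_ne hℓ1 h3
      set p : F := yc - algebraMap k F X with hp
      have hid : ℓ * (2 * (algebraMap k F ud * algebraMap k F Y ^ 2) -
          (ℓ + 2 * algebraMap k F uc * algebraMap k F X * p)) = algebraMap k F uc * p ^ 2 := by
        rw [hp, hℓ]
        linear_combination (-(algebraMap k F ud) * algebraMap k F Y ^ 2) * hCD +
          (algebraMap k F uc * (yc - algebraMap k F X) ^ 2 +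
            2 * (algebraMap k F uc * algebraMap k F X * (yc - algebraMap k F X) +
            (1 - algebraMap k F uc * algebraMap k F X * yc -
              algebraMap k F ud * algebraMap k F Y * yd)) +
            (algebraMap k F uc * algebraMap k F X ^ 2 - 1)) * hXY'
      have hp1 : v p ≤ 1 := by
        rw [hp]
        exact (v.map_sub _ _).trans (max_le hyc (hV.val_const_le _))
      have hv2 : v (2 : F) = 1 := hV.val_two h2
      have hc2 : v (2 * (algebraMap k F ud * algebraMap k F Y ^ 2)) = 1 := by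
        rw [map_mul, map_mul, map_pow, hv2, hV.val_const hud0, hV.val_const hY]
        simp
      have hc3 : v (2 * algebraMap k F uc * algebraMap k F X * p) ≤ v p := by
        rw [map_mul, map_mul, map_mul, hv2, hV.val_const huc0, one_mul, one_mul]
        calc v (algebraMap k F X) * v p ≤ 1 * v p := by
              gcongr
              exact hV.val_const_le _
          _ = v p := one_mul _
      have hpsq : v p ^ 2 ≤ v ℓ := by
        have h4 := congrArg v hid
        rw [map_mul, map_mul, hV.val_const huc0, one_mul, map_pow] at h4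
        rw [← h4]
        have h5 : v (2 * (algebraMap k F ud * algebraMap k F Y ^ 2) -
          (ℓ + 2 * algebraMap k F uc * algebraMap k F X * p)) ≤ 1 := by
          refine (v.map_sub _ _).trans (max_le hc2.le ?_)
          exact (v.map_add _ _).trans (max_le hℓ1 (hc3.trans hp1))
        calc v ℓ * _ ≤ v ℓ * 1 := by gcongr
          _ = v ℓ := mul_one _
      have hplt : v p < 1 := by
        have h4 : v p ^ 2 < 1 := lt_of_le_of_lt hpsq hlt
        exact (pow_lt_one_iff_of_nonneg zero_le two_ne_zero).1 h4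
      have h5 : v (2 * (algebraMap k F ud * algebraMap k F Y ^ 2) -
          (ℓ + 2 * algebraMap k F uc * algebraMap k F X * p)) = 1 := by
        rw [Valuation.map_sub_eq_of_lt_left, hc2]
        rw [hc2]
        exact v.map_add_lt hlt (lt_of_le_of_lt hc3 hplt)
      refine ⟨p, ?_⟩
      have h4 := congrArg v hid
      rw [map_mul, h5, mul_one, map_mul, hV.val_const huc0, one_mul, map_pow] at h4
      exact h4
    obtain ⟨z1, hz1⟩ := h1
    obtain ⟨z2, hz2⟩ := h2'
    exact ⟨z1 / z2, by rw [map_div₀, map_div₀, hz1, hz2, div_pow]⟩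
  · -- poles
    have hyt : ∀ (z : F) (e x : k), x ≠ 0 → t - algebraMap k F e = algebraMap k F x * z ^ 2 →
        v z ^ 2 = v t := by
      intro z e x hx h
      rw [hsq z e x hx h, Valuation.map_sub_eq_of_lt_left]
      exact lt_of_le_of_lt (hV.val_const_le e) hpole
    have hya2 := hyt ya a xa hxa ha
    have hyb2 := hyt yb b xb hxb hb
    have hyc2 := hyt yc c xc hxc hc
    have hyd2 := hyt yd d xd hxd hd
    have hinj : ∀ x y : V.ValueGroup, x ^ 2 = y ^ 2 → x = y := by
      intro x y h
      exact (pow_left_inj₀ zero_le zero_le two_ne_zero).1 h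
    have hyac : v ya = v yc := hinj _ _ (hya2.trans hyc2.symm)
    have hydc : v yd = v yc := hinj _ _ (hyd2.trans hyc2.symm)
    have hyc1 : 1 < v yc := by
      by_contra hle
      push Not at hle
      have : v yc ^ 2 ≤ 1 := pow_le_one₀ zero_le hle
      rw [hyc2] at this
      exact absurd hpole (not_lt.2 this)
    have hfirst : v (1 - θ * ya) = v yc := by
      rw [Valuation.map_sub_eq_of_lt_right, map_mul, hvθ, one_mul, hyac]
      rw [map_one, map_mul, hvθ, one_mul, hyac]
      exact hyc1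
    set ℓ' : F := algebraMap k F uc * algebraMap k F X * yc +
      algebraMap k F ud * algebraMap k F Y * yd with hℓ'
    set D : F := algebraMap k F X * yd - algebraMap k F Y * yc with hD
    have hid1 : ℓ' ^ 2 + algebraMap k F uc * algebraMap k F ud * D ^ 2 = 1 := by
      rw [hℓ', hD]
      linear_combination (algebraMap k F uc * algebraMap k F X ^ 2 +
        algebraMap k F ud * algebraMap k F Y ^ 2) * hCD + hXY'
    have hid2 : algebraMap k F X * ℓ' - algebraMap k F ud * algebraMap k F Y * D = yc := by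
      rw [hℓ', hD]
      linear_combination yc * hXY'
    have hℓ'le : v ℓ' ≤ v yc := by
      rw [hℓ']
      refine (v.map_add _ _).trans (max_le ?_ ?_)
      · rw [map_mul, map_mul]
        calc _ ≤ 1 * 1 * v yc := by
              gcongr <;> exact hV.val_const_le _
          _ = v yc := by simp
      · rw [map_mul, map_mul, hydc]
        calc _ ≤ 1 * 1 * v yc := by
              gcongr <;> exact hV.val_const_le _
          _ = v yc := by simp
    have hℓ'eq : v ℓ' = v yc := by
      by_contra hne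
      have hlt : v ℓ' < v yc := lt_of_le_of_ne hℓ'le hne
      have hXl : v (algebraMap k F X * ℓ') < v yc := by
        rw [map_mul]
        calc v (algebraMap k F X) * v ℓ' ≤ 1 * v ℓ' := by
              gcongr
              exact hV.val_const_le _
          _ = v ℓ' := one_mul _
          _ < v yc := hlt
      have hvD : v D = v yc := by
        have h1 : algebraMap k F ud * algebraMap k F Y * D = algebraMap k F X * ℓ' - yc := by
          linear_combination -hid2
        have h3 := congrArg v h1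
        rw [Valuation.map_sub_eq_of_lt_right _ hXl, map_mul, map_mul, hV.val_const hud0,
          hV.val_const hY, one_mul, one_mul] at h3
        exact h3
      have h1 : algebraMap k F uc * algebraMap k F ud * D ^ 2 = 1 - ℓ' ^ 2 := by
        linear_combination hid1
      have h3 := congrArg v h1
      rw [map_mul, map_mul, hV.val_const huc0, hV.val_const hud0, one_mul, one_mul, map_pow,
        hvD] at h3
      have h4 : v (1 - ℓ' ^ 2) < v yc ^ 2 := by
        refine lt_of_le_of_lt (v.map_sub _ _) (max_lt ?_ ?_)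
        · rw [map_one]
          exact one_lt_pow₀ hyc1 two_ne_zero
        · rw [map_pow]
          exact pow_lt_pow_left₀ hlt zero_le two_ne_zero
      rw [h3] at h4
      exact lt_irrefl _ h4
    have hℓeq : v ℓ = v yc := by
      have h1 : ℓ = 1 - ℓ' := by rw [hℓ, hℓ']; ring
      rw [h1, Valuation.map_sub_eq_of_lt_right, hℓ'eq]
      rw [map_one, hℓ'eq]
      exact hyc1
    refine ⟨1, ?_⟩
    rw [map_div₀, hfirst, hℓeq, map_one, one_pow, div_self]
    intro h0
    rw [h0] at hyc1
    exact absurd hyc1 (not_lt.2 zero_le)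

end even

variable [CharZero k] {s : Gal(constClosure k K/k) →* Gal(maxUnr k K/K)}

lemma exists_class (hs : IsSection k K s) (f : K) (hf0 : f ≠ 0) (hev : IsEven k f) :
    ∃ (x : k) (y : maxUnr k K), x ≠ 0 ∧ (∀ σ, s σ y = y) ∧
      algebraMap K (maxUnr k K) f = algebraMap k (maxUnr k K) x * y ^ 2 := by
  have h2 : (2 : k) ≠ 0 := two_ne_zero
  obtain ⟨w, hw⟩ := IsAlgClosed.exists_pow_nat_eq (algebraMap K (AlgebraicClosure K) f)
    (n := 2) (by norm_num)
  obtain ⟨F, hF, -, hwF⟩ := isFinUnr_bot.exists_sqrt_base h2 w f hw hev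
  set γ : maxUnr k K := ⟨w, hF.le_maxUnr hwF⟩ with hγdef
  have hγ : γ ^ 2 = algebraMap K (maxUnr k K) f := Subtype.ext hw
  have hγ0 : γ ≠ 0 := by
    intro h0
    rw [h0] at hγ
    have : algebraMap K (maxUnr k K) f = 0 := by rw [← hγ]; ring
    exact hf0 (by simpa using this)
  have hsγ : ∀ σ, s σ γ = γ ∨ s σ γ = - γ := by
    intro σ
    have h1 : (s σ γ) ^ 2 = γ ^ 2 := by
      rw [← map_pow, hγ, AlgEquiv.commutes]
    exact sq_eq_sq_iff_eq_or_eq_neg.1 h1
  obtain ⟨l, hl0, hlN, hlH⟩ := kummer_two (⊤ : Subgroup Gal(constClosure k K/k)) (stabS s γ)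
    (isClosed_stabS hs γ)
    (by
      intro σ _ ρ _ hσN hρN
      rw [mem_stabS] at hσN hρN ⊢
      have h1 : s σ γ = - γ := (hsγ σ).resolve_left hσN
      have h3 : s ρ γ = - γ := (hsγ ρ).resolve_left hρN
      rw [map_mul, AlgEquiv.mul_apply, h3, map_neg, h1, neg_neg])
    le_top
  have hlfix : ∀ σ : Gal(constClosure k K/k), σ (l ^ 2) = l ^ 2 := by
    intro σ
    by_cases hσN : σ ∈ stabS s γ
    · rw [map_pow, hlN σ hσN]
    · rw [map_pow, hlH σ trivial hσN, neg_sq]
  obtain ⟨x, hx⟩ := (InfiniteGalois.mem_range_algebraMap_iff_fixed (l ^ 2)).2 hlfix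
  have hx0 : x ≠ 0 := by
    intro h0
    rw [h0, map_zero] at hx
    exact hl0 (pow_eq_zero_iff two_ne_zero |>.1 hx.symm)
  have hl2 : (l : AlgebraicClosure K) ^ 2 = algebraMap k (AlgebraicClosure K) x :=
    (congrArg (fun z : constClosure k K => (z : AlgebraicClosure K)) hx).symm
  have hlmem : (l : AlgebraicClosure K) ∈ maxUnr k K := by
    obtain ⟨F1, hF1, -, hlF1⟩ := isFinUnr_bot.exists_sqrt_const (K := K) h2
      (l : AlgebraicClosure K) x hx0 hl2
    exact hF1.le_maxUnr hlF1
  set lT : maxUnr k K := ⟨l, hlmem⟩ with hlTdef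
  have hlT0 : lT ≠ 0 := by
    intro h0
    apply hl0
    apply Subtype.ext
    exact congrArg (fun x : maxUnr k K => (x : AlgebraicClosure K)) h0
  have hlT2 : lT ^ 2 = algebraMap k (maxUnr k K) x := Subtype.ext hl2
  refine ⟨x, γ / lT, hx0, ?_, ?_⟩
  · intro σ
    by_cases hσN : σ ∈ stabS s γ
    · have := hs.lifts σ l lT rfl
      rw [hlN σ hσN] at this
      have h1 : s σ lT = lT := (Subtype.ext this).symm
      rw [map_div₀, h1, (mem_stabS γ σ).1 hσN]
    · have := hs.lifts σ l lT rfl
      rw [hlH σ trivial hσN] at this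
      have h1 : s σ lT = - lT := (Subtype.ext this).symm
      have h3 : s σ γ = - γ := (hsγ σ).resolve_left hσN
      rw [map_div₀, h1, h3, neg_div_neg_eq]
  · rw [div_pow, hlT2, hγ]
    have : algebraMap k (maxUnr k K) x ≠ 0 := (map_ne_zero _).2 hx0
    field_simp

/-- **Equal symbol lemma** (auxiliary form). -/
lemma split_transfer_aux (hs : IsSection k K s) (t : K)
    (ht : ∀ z : k, t ≠ algebraMap k K z) (a b c d xa xb xc xd : k)
    (hxa : xa ≠ 0) (hxb : xb ≠ 0) (hxc : xc ≠ 0) (hxd : xd ≠ 0) (hab : b - a ≠ 0)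
    (hcd : d - c ≠ 0) (ya yb yc yd : maxUnr k K)
    (hya : ∀ σ, s σ ya = ya) (hyb : ∀ σ, s σ yb = yb) (hyc : ∀ σ, s σ yc = yc)
    (hyd : ∀ σ, s σ yd = yd)
    (hea : IsEven k (t - algebraMap k K a)) (heb : IsEven k (t - algebraMap k K b))
    (hec : IsEven k (t - algebraMap k K c)) (hed : IsEven k (t - algebraMap k K d))
    (ha : algebraMap K (maxUnr k K) (t - algebraMap k K a) =
      algebraMap k (maxUnr k K) xa * ya ^ 2)
    (hb : algebraMap K (maxUnr k K) (t - algebraMap k K b) =
      algebraMap k (maxUnr k K) xb * yb ^ 2)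
    (hc : algebraMap K (maxUnr k K) (t - algebraMap k K c) =
      algebraMap k (maxUnr k K) xc * yc ^ 2)
    (hd : algebraMap K (maxUnr k K) (t - algebraMap k K d) =
      algebraMap k (maxUnr k K) xd * yd ^ 2)
    (ua ub uc ud : k) (hua : ua * (b - a) = xa) (hub : ub * (a - b) = xb)
    (huc : uc * (d - c) = xc) (hud : ud * (c - d) = xd)
    (X Y : k) (hXY : uc * X ^ 2 + ud * Y ^ 2 = 1) (hY : Y ≠ 0) :
    Split ua ub := by
  have h2 : (2 : k) ≠ 0 := two_ne_zero
  have hua0 : ua ≠ 0 := fun h => hxa (by rw [← hua, h, zero_mul])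
  have hub0 : ub ≠ 0 := fun h => hxb (by rw [← hub, h, zero_mul])
  have huc0 : uc ≠ 0 := fun h => hxc (by rw [← huc, h, zero_mul])
  have hud0 : ud ≠ 0 := fun h => hxd (by rw [← hud, h, zero_mul])
  -- a finite unramified field containing everything
  have step : ∀ (F : IntermediateField K (AlgebraicClosure K)), IsFinUnr k F →
      ∀ (e x : k) (y : maxUnr k K), x ≠ 0 → IsEven k (t - algebraMap k K e) →
      algebraMap K (maxUnr k K) (t - algebraMap k K e) =
        algebraMap k (maxUnr k K) x * y ^ 2 →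
      ∃ F' : IntermediateField K (AlgebraicClosure K), IsFinUnr k F' ∧ F ≤ F' ∧
        (y : AlgebraicClosure K) ∈ F' := by
    intro F hF e x y hx hev h
    refine hF.exists_sqrt_base h2 (y : AlgebraicClosure K)
      ((t - algebraMap k K e) * algebraMap k K x⁻¹) ?_ ?_
    · have h1 : (y : maxUnr k K) ^ 2 = algebraMap K (maxUnr k K)
          ((t - algebraMap k K e) * algebraMap k K x⁻¹) := by
        rw [map_mul, h, ← IsScalarTower.algebraMap_apply, map_inv₀]
        have : algebraMap k (maxUnr k K) x ≠ 0 := (map_ne_zero _).2 hx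
        field_simp
      exact congrArg (fun z : maxUnr k K => (z : AlgebraicClosure K)) h1
    · intro V hV
      obtain ⟨y, hy⟩ := hev V hV
      refine ⟨y, ?_⟩
      rw [map_mul, hV.val_const (inv_ne_zero hx), mul_one, hy]
  obtain ⟨θΩ, hθΩ⟩ := IsAlgClosed.exists_pow_nat_eq (algebraMap k (AlgebraicClosure K) ua)
    (n := 2) (by norm_num)
  obtain ⟨F0, hF0, -, hθF0⟩ := isFinUnr_bot.exists_sqrt_const (K := K) h2 θΩ ua hua0 hθΩ
  obtain ⟨F1, hF1, h01, hyaF⟩ := step F0 hF0 a xa ya hxa hea ha
  obtain ⟨F2, hF2, h12, hybF⟩ := step F1 hF1 b xb yb hxb heb hb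
  obtain ⟨F3, hF3, h23, hycF⟩ := step F2 hF2 c xc yc hxc hec hc
  obtain ⟨F, hF, h34, hydF⟩ := step F3 hF3 d xd yd hxd hed hd
  have hθF : θΩ ∈ F := h34 (h23 (h12 (h01 hθF0)))
  have hyaF : (ya : AlgebraicClosure K) ∈ F := h34 (h23 (h12 hyaF))
  have hybF : (yb : AlgebraicClosure K) ∈ F := h34 (h23 hybF)
  have hycF : (yc : AlgebraicClosure K) ∈ F := h34 hycF
  -- `t` is not constant in the big field
  have htT : ∀ z : k, algebraMap K (maxUnr k K) t ≠ algebraMap k (maxUnr k K) z := by
    intro z h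
    rw [IsScalarTower.algebraMap_apply k K (maxUnr k K)] at h
    exact ht z ((algebraMap K (maxUnr k K)).injective h)
  have hyb0 : yb ≠ 0 := by
    intro h0
    rw [h0] at hb
    apply htT b
    rw [map_sub, ← IsScalarTower.algebraMap_apply] at hb
    linear_combination hb
  -- the tangent line
  set ℓ : maxUnr k K := 1 - algebraMap k (maxUnr k K) (uc * X) * yc -
    algebraMap k (maxUnr k K) (ud * Y) * yd with hℓ
  have hdc : (algebraMap k (maxUnr k K) (d - c)) ≠ 0 := (map_ne_zero _).2 hcd
  have hba : (algebraMap k (maxUnr k K) (b - a)) ≠ 0 := (map_ne_zero _).2 hab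
  have hAB : algebraMap k (maxUnr k K) ua * ya ^ 2 +
      algebraMap k (maxUnr k K) ub * yb ^ 2 = 1 := by
    apply mul_left_cancel₀ hba
    rw [← hua, map_mul] at ha
    rw [← hub, map_mul] at hb
    rw [map_sub, ← IsScalarTower.algebraMap_apply, map_sub] at ha hb
    rw [map_sub]
    linear_combination hb - ha
  have hCD : algebraMap k (maxUnr k K) uc * yc ^ 2 +
      algebraMap k (maxUnr k K) ud * yd ^ 2 = 1 := by
    apply mul_left_cancel₀ hdc
    rw [← huc, map_mul] at hc
    rw [← hud, map_mul] at hd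
    rw [map_sub, ← IsScalarTower.algebraMap_apply, map_sub] at hc hd
    rw [map_sub]
    linear_combination hd - hc
  have hXY' : algebraMap k (maxUnr k K) uc * algebraMap k (maxUnr k K) X ^ 2 +
      algebraMap k (maxUnr k K) ud * algebraMap k (maxUnr k K) Y ^ 2 = 1 := by
    rw [← map_pow, ← map_pow, ← map_mul, ← map_mul, ← map_add, hXY, map_one]
  have hℓ0 : ℓ ≠ 0 := by
    intro h0
    have hucT : algebraMap k (maxUnr k K) uc ≠ 0 := (map_ne_zero _).2 huc0
    set p : maxUnr k K := yc - algebraMap k (maxUnr k K) X with hp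
    have hid : ℓ * (2 * (algebraMap k (maxUnr k K) ud * algebraMap k (maxUnr k K) Y ^ 2) -
        (ℓ + 2 * algebraMap k (maxUnr k K) uc * algebraMap k (maxUnr k K) X * p)) =
        algebraMap k (maxUnr k K) uc * p ^ 2 := by
      rw [hp, hℓ, map_mul, map_mul]
      linear_combination (-(algebraMap k (maxUnr k K) ud) *
          algebraMap k (maxUnr k K) Y ^ 2) * hCD +
        (algebraMap k (maxUnr k K) uc * (yc - algebraMap k (maxUnr k K) X) ^ 2 +
          2 * (algebraMap k (maxUnr k K) uc * algebraMap k (maxUnr k K) X *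
            (yc - algebraMap k (maxUnr k K) X) +
          (1 - algebraMap k (maxUnr k K) uc * algebraMap k (maxUnr k K) X * yc -
            algebraMap k (maxUnr k K) ud * algebraMap k (maxUnr k K) Y * yd)) +
          (algebraMap k (maxUnr k K) uc * algebraMap k (maxUnr k K) X ^ 2 - 1)) * hXY'
    rw [h0, zero_mul] at hid
    have hp0 : p = 0 := by
      have := (mul_eq_zero.1 hid.symm).resolve_left hucT
      exact pow_eq_zero_iff two_ne_zero |>.1 this
    apply htT (c + xc * X ^ 2)
    have hyc' : yc = algebraMap k (maxUnr k K) X := by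
      rw [hp] at hp0; exact sub_eq_zero.1 hp0
    rw [map_sub, ← IsScalarTower.algebraMap_apply, hyc'] at hc
    rw [map_add, map_mul, map_pow]
    linear_combination hc
  -- the element `g`
  have hθT : θΩ ∈ maxUnr k K := hF.le_maxUnr hθF
  set θ : maxUnr k K := ⟨θΩ, hθT⟩ with hθdef
  have hθ : θ ^ 2 = algebraMap k (maxUnr k K) ua := Subtype.ext hθΩ
  obtain ⟨γΩ, hγΩ⟩ := IsAlgClosed.exists_pow_nat_eq
    ((((1 - θ * ya) / ℓ : maxUnr k K)) : AlgebraicClosure K) (n := 2) (by norm_num)
  have hγmem : γΩ ∈ maxUnr k K := by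
    have hevF : IsEven k (((1 - (⟨θΩ, hθF⟩ : F) * ⟨ya, hyaF⟩) /
        (1 - algebraMap k F (uc * X) * ⟨yc, hycF⟩ - algebraMap k F (ud * Y) * ⟨yd, hydF⟩)) :
        F) := by
      refine isEven_tangent h2 (algebraMap K F t) ⟨θΩ, hθF⟩ ⟨ya, hyaF⟩ ⟨yb, hybF⟩ ⟨yc, hycF⟩
        ⟨yd, hydF⟩ a b c d xa xb xc xd hxa hxb hxc hxd hab hcd ?_ ?_ ?_ ?_ ua ub uc ud
        hua hub huc hud (Subtype.ext hθΩ) X Y hXY hY _ rfl ?_
      · apply Subtype.ext
        rw [map_sub, ← IsScalarTower.algebraMap_apply] at ha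
        exact congrArg (fun z : maxUnr k K => (z : AlgebraicClosure K)) ha
      · apply Subtype.ext
        rw [map_sub, ← IsScalarTower.algebraMap_apply] at hb
        exact congrArg (fun z : maxUnr k K => (z : AlgebraicClosure K)) hb
      · apply Subtype.ext
        rw [map_sub, ← IsScalarTower.algebraMap_apply] at hc
        exact congrArg (fun z : maxUnr k K => (z : AlgebraicClosure K)) hc
      · apply Subtype.ext
        rw [map_sub, ← IsScalarTower.algebraMap_apply] at hd
        exact congrArg (fun z : maxUnr k K => (z : AlgebraicClosure K)) hd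
      · intro h0
        apply hℓ0
        apply Subtype.ext
        exact congrArg (fun z : F => (z : AlgebraicClosure K)) h0
    obtain ⟨F', hF', -, hγF'⟩ := hF.exists_sqrt h2 γΩ _ hγΩ hevF
    exact hF'.le_maxUnr hγF'
  set γ : maxUnr k K := ⟨γΩ, hγmem⟩ with hγdef
  have hγ : γ ^ 2 = (1 - θ * ya) / ℓ := Subtype.ext hγΩ
  have hsℓ : ∀ σ, s σ ℓ = ℓ := by
    intro σ
    rw [hℓ]
    simp only [map_sub, map_one, map_mul, s_const, hyc, hyd]
  rcases lemmaN hs θ ua hua0 hθ (1 / ℓ) (-ya / ℓ) (yb / ℓ) γ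
    (fun σ => by rw [map_div₀, map_one, hsℓ]) (fun σ => by rw [map_div₀, map_neg, hsℓ, hya])
    (fun σ => by rw [map_div₀, hsℓ, hyb]) (div_ne_zero hyb0 hℓ0)
    (by rw [hγ]; field_simp; ring) ub hub0
    (by
      field_simp
      linear_combination -hAB) with h | h
  · exact split_of_sq hua0 h
  · exact split_of_norm h2 hua0 hub0 h

/-- **Equal symbol lemma.** -/
lemma split_transfer (hs : IsSection k K s) (t : K)
    (ht : ∀ z : k, t ≠ algebraMap k K z) (a b c d xa xb xc xd : k)
    (hxa : xa ≠ 0) (hxb : xb ≠ 0) (hxc : xc ≠ 0) (hxd : xd ≠ 0) (hab : b - a ≠ 0)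
    (hcd : d - c ≠ 0) (ya yb yc yd : maxUnr k K)
    (hya : ∀ σ, s σ ya = ya) (hyb : ∀ σ, s σ yb = yb) (hyc : ∀ σ, s σ yc = yc)
    (hyd : ∀ σ, s σ yd = yd)
    (hea : IsEven k (t - algebraMap k K a)) (heb : IsEven k (t - algebraMap k K b))
    (hec : IsEven k (t - algebraMap k K c)) (hed : IsEven k (t - algebraMap k K d))
    (ha : algebraMap K (maxUnr k K) (t - algebraMap k K a) =
      algebraMap k (maxUnr k K) xa * ya ^ 2)
    (hb : algebraMap K (maxUnr k K) (t - algebraMap k K b) =
      algebraMap k (maxUnr k K) xb * yb ^ 2)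
    (hc : algebraMap K (maxUnr k K) (t - algebraMap k K c) =
      algebraMap k (maxUnr k K) xc * yc ^ 2)
    (hd : algebraMap K (maxUnr k K) (t - algebraMap k K d) =
      algebraMap k (maxUnr k K) xd * yd ^ 2)
    (hsplit : Split (xc / (d - c)) (xd / (c - d))) :
    Split (xa / (b - a)) (xb / (a - b)) := by
  have hba : a - b ≠ 0 := by
    intro h; apply hab; rw [← neg_sub, h, neg_zero]
  have hdc : c - d ≠ 0 := by
    intro h; apply hcd; rw [← neg_sub, h, neg_zero]
  obtain ⟨X, Y, hXY⟩ := hsplit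
  by_cases hY : Y = 0
  · have hX : X ≠ 0 := by
      intro hX
      rw [hX, hY] at hXY
      simp at hXY
    refine split_transfer_aux hs t ht a b d c xa xb xd xc hxa hxb hxd hxc hab hdc ya yb yd yc
      hya hyb hyd hyc hea heb hed hec ha hb hd hc _ _ (xd / (c - d)) (xc / (d - c))
      (div_mul_cancel₀ _ hab) (div_mul_cancel₀ _ hba) (div_mul_cancel₀ _ hdc)
      (div_mul_cancel₀ _ hcd) Y X ?_ hX
    rw [add_comm]; exact hXY
  · exact split_transfer_aux hs t ht a b c d xa xb xc xd hxa hxb hxc hxd hab hcd ya yb yc yd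
      hya hyb hyc hyd hea heb hec hed ha hb hc hd _ _ _ _
      (div_mul_cancel₀ _ hab) (div_mul_cancel₀ _ hba) (div_mul_cancel₀ _ hcd)
      (div_mul_cancel₀ _ hdc) X Y hXY hY

end P025H25
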