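import Vale.Agent.P025.H25.Unram

open IntermediateField

namespace P025H25

universe u v w

variable {k : Type u} {K : Type v} [Field k] [Field K] [Algebra k K]

/-- finite and unramified subextensions of the algebraic closure -/
def IsFinUnr (k : Type u) {K : Type v} [Field k] [Field K] [Algebra k K]
    (F : IntermediateField K (AlgebraicClosure K)) : Prop :=
  FiniteDimensional K F ∧ IsUnramified k K F

lemma IsEven.map_algebraMap {F E : Type*} [Field F] [Field E] [Algebra F E] [Algebra k F]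
    [Algebra k E] [IsScalarTower k F E] [Algebra.IsAlgebraic F E] {f : F} (hf : IsEven k f) :
    IsEven k (algebraMap F E f) := by
  intro V hV
  obtain ⟨y, hy⟩ := hf _ (hV.comap (F := F))
  refine ⟨algebraMap F E y, ?_⟩
  rw [← map_pow, comap_val_eq_iff] at hy
  rw [hy, map_pow, map_pow]

lemma isEven_const {F : Type*} [Field F] [Algebra k F] {c : k} (hc : c ≠ 0) :
    IsEven k (algebraMap k F c) := by
  intro V hV
  exact ⟨1, by rw [hV.val_const hc]; simp⟩

lemma isFinUnr_bot : IsFinUnr k (⊥ : IntermediateField K (AlgebraicClosure K)) := by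
  refine ⟨inferInstance, ?_⟩
  intro V _ x
  obtain ⟨y, hy⟩ := IntermediateField.mem_bot.1 x.2
  refine ⟨y, ?_⟩
  congr 1
  apply Subtype.ext
  exact hy

lemma IsFinUnr.le_maxUnr {F : IntermediateField K (AlgebraicClosure K)} (hF : IsFinUnr k F) :
    F ≤ maxUnr k K :=
  le_sSup hF

lemma adjoin_sqrt_gen {F : Type*} [Field F] {Ω : Type*} [Field Ω] [Algebra F Ω]
    (w : Ω) (f : F) (hw : w ^ 2 = algebraMap F Ω f) (x : F⟮w⟯) :
    ∃ α β : F, x = algebraMap F F⟮w⟯ α + algebraMap F F⟮w⟯ β * (AdjoinSimple.gen F w) := by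
  have hint : IsIntegral F w := by
    refine IsIntegral.of_pow (n := 2) (by norm_num) ?_
    rw [hw]
    exact isIntegral_algebraMap
  have hx : (x : Ω) ∈ Algebra.adjoin F {w} := by
    have h1 := IntermediateField.adjoin_simple_toSubalgebra_of_isAlgebraic hint.isAlgebraic
    rw [← h1]
    exact x.2
  have key : ∀ z ∈ Algebra.adjoin F {w}, ∃ α β : F,
      z = algebraMap F Ω α + algebraMap F Ω β * w := by
    intro z hz
    induction hz using Algebra.adjoin_induction with
    | mem z hz =>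
      rw [Set.mem_singleton_iff] at hz
      exact ⟨0, 1, by rw [hz]; simp⟩
    | algebraMap r => exact ⟨r, 0, by simp⟩
    | add y z _ _ hy hz =>
      obtain ⟨a, b, rfl⟩ := hy
      obtain ⟨c, d, rfl⟩ := hz
      exact ⟨a + c, b + d, by rw [map_add, map_add]; ring⟩
    | mul y z _ _ hy hz =>
      obtain ⟨a, b, rfl⟩ := hy
      obtain ⟨c, d, rfl⟩ := hz
      refine ⟨a * c + b * d * f, a * d + b * c, ?_⟩
      rw [map_add, map_add, map_mul, map_mul, map_mul, map_mul, map_mul, ← hw]
      ring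
  obtain ⟨α, β, h⟩ := key _ hx
  refine ⟨α, β, ?_⟩
  apply Subtype.ext
  rw [h]
  rfl

lemma IsFinUnr.adjoin_sqrt (h2 : (2 : k) ≠ 0) {F : IntermediateField K (AlgebraicClosure K)}
    (hF : IsFinUnr k F) (w : AlgebraicClosure K) (f : F) (hw : w ^ 2 = (f : AlgebraicClosure K))
    (hev : IsEven k f) :
    IsFinUnr k ((F⟮w⟯).restrictScalars K) := by
  obtain ⟨hfin, hunr⟩ := hF
  have hint : IsIntegral F w := by
    refine IsIntegral.of_pow (n := 2) (by norm_num) ?_
    rw [hw]
    exact isIntegral_algebraMap (x := f)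
  haveI : FiniteDimensional F F⟮w⟯ := IntermediateField.adjoin.finiteDimensional hint
  have hfin2 : FiniteDimensional K F⟮w⟯ := FiniteDimensional.trans K F F⟮w⟯
  set E : IntermediateField K (AlgebraicClosure K) := (F⟮w⟯).restrictScalars K with hE
  have hfinE : FiniteDimensional K E := hfin2
  have hFE : F ≤ E := fun x hx => (F⟮w⟯).algebraMap_mem ⟨x, hx⟩
  letI : Algebra F E := (IntermediateField.inclusion hFE).toRingHom.toAlgebra
  haveI : IsScalarTower K F E := IsScalarTower.of_algebraMap_eq (fun x => rfl)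
  haveI : IsScalarTower k F E := IsScalarTower.of_algebraMap_eq (fun x => rfl)
  haveI : Algebra.IsAlgebraic F E := Algebra.IsAlgebraic.tower_top (K := K) F
  refine ⟨hfinE, ?_⟩
  have hwE : w ∈ E := IntermediateField.mem_adjoin_simple_self F w
  refine isUnramified_of_sqrt (F := F) (E := E) h2 hunr ⟨w, hwE⟩ f ?_ ?_ hev
  · apply Subtype.ext
    exact hw
  · intro x
    obtain ⟨α, β, h⟩ := adjoin_sqrt_gen w f hw ⟨x.1, x.2⟩
    refine ⟨α, β, ?_⟩
    apply Subtype.ext
    exact congrArg Subtype.val h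

lemma IsFinUnr.exists_sqrt (h2 : (2 : k) ≠ 0) {F : IntermediateField K (AlgebraicClosure K)}
    (hF : IsFinUnr k F) (w : AlgebraicClosure K) (f : F) (hw : w ^ 2 = (f : AlgebraicClosure K))
    (hev : IsEven k f) :
    ∃ F' : IntermediateField K (AlgebraicClosure K), IsFinUnr k F' ∧ F ≤ F' ∧ w ∈ F' := by
  refine ⟨_, hF.adjoin_sqrt h2 w f hw hev, ?_, ?_⟩
  · intro x hx
    exact (F⟮w⟯).algebraMap_mem ⟨x, hx⟩
  · exact IntermediateField.mem_adjoin_simple_self F w

lemma IsFinUnr.exists_sqrt_base (h2 : (2 : k) ≠ 0)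
    {F : IntermediateField K (AlgebraicClosure K)}
    (hF : IsFinUnr k F) (w : AlgebraicClosure K) (f : K)
    (hw : w ^ 2 = algebraMap K (AlgebraicClosure K) f) (hev : IsEven k f) :
    ∃ F' : IntermediateField K (AlgebraicClosure K), IsFinUnr k F' ∧ F ≤ F' ∧ w ∈ F' := by
  haveI := hF.1
  exact hF.exists_sqrt h2 w (algebraMap K F f) hw hev.map_algebraMap

lemma IsFinUnr.exists_sqrt_const (h2 : (2 : k) ≠ 0)
    {F : IntermediateField K (AlgebraicClosure K)}
    (hF : IsFinUnr k F) (w : AlgebraicClosure K) (c : k) (hc : c ≠ 0)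
    (hw : w ^ 2 = algebraMap k (AlgebraicClosure K) c) :
    ∃ F' : IntermediateField K (AlgebraicClosure K), IsFinUnr k F' ∧ F ≤ F' ∧ w ∈ F' := by
  refine hF.exists_sqrt_base h2 w (algebraMap k K c) ?_ (isEven_const hc)
  rw [hw, ← IsScalarTower.algebraMap_apply]

end P025H25
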