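import Vale.Agent.P025.H25.Defs

open IntermediateField

namespace P025H25

universe u v w

section place

variable {k : Type u} [Field k] {E : Type w} [Field E] [Algebra k E] {V : ValuationSubring E}

lemma IsPlace.val_const (hV : IsPlace k E V) {c : k} (hc : c ≠ 0) :
    V.valuation (algebraMap k E c) = 1 := by
  apply le_antisymm
  · exact (V.valuation_le_one_iff _).2 (hV.const_mem c)
  · have h := (V.valuation_le_one_iff _).2 (hV.const_mem c⁻¹)
    rw [map_inv₀, map_inv₀] at h
    have h0 : V.valuation (algebraMap k E c) ≠ 0 := by simpa using hc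
    exact (inv_le_one₀ (zero_lt_iff.2 h0)).1 h

lemma IsPlace.val_two (hV : IsPlace k E V) (h2 : (2 : k) ≠ 0) :
    V.valuation (2 : E) = 1 := by
  have := hV.val_const h2
  rwa [map_ofNat] at this

end place

section comap

variable {F : Type v} {E : Type w} [Field F] [Field E] [Algebra F E]

lemma comap_isEquiv (V : ValuationSubring E) :
    (V.comap (algebraMap F E)).valuation.IsEquiv (V.valuation.comap (algebraMap F E)) := by
  apply Valuation.isEquiv_of_val_le_one
  intro x
  rw [ValuationSubring.valuation_le_one_iff, ValuationSubring.mem_comap, Valuation.comap_apply,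
    ValuationSubring.valuation_le_one_iff]

lemma comap_val_eq_iff (V : ValuationSubring E) (x y : F) :
    (V.comap (algebraMap F E)).valuation x = (V.comap (algebraMap F E)).valuation y ↔
      V.valuation (algebraMap F E x) = V.valuation (algebraMap F E y) :=
  (comap_isEquiv V).eq_iff

lemma IsPlace.comap {k : Type u} [Field k] [Algebra k F] [Algebra k E] [IsScalarTower k F E]
    [Algebra.IsAlgebraic F E] {V : ValuationSubring E} (hV : IsPlace k E V) :
    IsPlace k F (V.comap (algebraMap F E)) where
  const_mem c := by
    rw [ValuationSubring.mem_comap, ← IsScalarTower.algebraMap_apply]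
    exact hV.const_mem c
  ne_top := by
    intro htop
    apply hV.ne_top
    have hF : ∀ x : F, algebraMap F E x ∈ V := by
      intro x
      have : x ∈ V.comap (algebraMap F E) := by rw [htop]; exact ValuationSubring.mem_top x
      simpa using this
    rw [eq_top_iff]
    intro x _
    let φ : F →+* V := (algebraMap F E).codRestrict V.toSubring (fun x => hF x)
    letI : Algebra F V := φ.toAlgebra
    haveI : IsScalarTower F V E := IsScalarTower.of_algebraMap_eq (fun x => rfl)
    have hx : IsIntegral V x := (Algebra.IsIntegral.isIntegral (R := F) x).tower_top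
    obtain ⟨y, hy⟩ := IsIntegrallyClosed.isIntegral_iff.mp hx
    rw [← hy]
    exact y.2

end comap

section sqrtExt

variable {k : Type u} [Field k]

lemma isUnramified_of_sqrt {K F E : Type*} [Field K] [Field F] [Field E] [Algebra K F]
    [Algebra F E] [Algebra K E] [IsScalarTower K F E] [Algebra k F] [Algebra k E]
    [IsScalarTower k F E] [Algebra.IsAlgebraic F E] (h2 : (2 : k) ≠ 0)
    (hF : IsUnramified k K F) (w : E) (f : F) (hw : w ^ 2 = algebraMap F E f)
    (hgen : ∀ x : E, ∃ α β : F, x = algebraMap F E α + algebraMap F E β * w)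
    (heven : ∀ V : ValuationSubring F, IsPlace k F V →
      ∃ y : F, V.valuation f = V.valuation y ^ 2) :
    IsUnramified k K E := by
  intro V hV x
  have hVF : IsPlace k F (V.comap (algebraMap F E)) := hV.comap
  -- it suffices to find `α : F` with the same value
  suffices h : ∃ α : F, V.valuation (algebraMap F E α) = V.valuation x by
    obtain ⟨α, hα⟩ := h
    obtain ⟨y, hy⟩ := hF _ hVF α
    refine ⟨y, ?_⟩
    rw [comap_val_eq_iff] at hy
    rw [IsScalarTower.algebraMap_apply K F E, hy, hα]
  obtain ⟨α, β, hx⟩ := hgen x
  by_cases hf : f = 0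
  · have hw0 : w = 0 := by
      have : w ^ 2 = 0 := by rw [hw, hf, map_zero]
      exact pow_eq_zero_iff (two_ne_zero) |>.1 this
    exact ⟨α, by rw [hx, hw0, mul_zero, add_zero]⟩
  obtain ⟨y, hy⟩ := heven _ hVF
  have hfy : V.valuation (algebraMap F E f) = V.valuation (algebraMap F E y) ^ 2 := by
    have : (V.comap (algebraMap F E)).valuation f =
        (V.comap (algebraMap F E)).valuation (y ^ 2) := by rw [hy, map_pow]
    rw [comap_val_eq_iff] at this
    rw [this, map_pow, map_pow]
  have hw0 : w ≠ 0 := by
    intro h0
    apply hf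
    have : algebraMap F E f = 0 := by rw [← hw, h0]; ring
    simpa using this
  have hfE : algebraMap F E f ≠ 0 := by simpa using hf
  have hy0 : y ≠ 0 := by
    intro h0
    rw [h0, map_zero, map_zero] at hfy
    have : V.valuation (algebraMap F E f) = 0 := by rw [hfy]; simp
    rw [map_eq_zero] at this
    exact hfE this
  have hyE : algebraMap F E y ≠ 0 := by simpa using hy0
  set u : E := w / algebraMap F E y with hu
  have hwu : w = u * algebraMap F E y := by rw [hu]; field_simp
  have hu1 : V.valuation u = 1 := by
    have h1 : V.valuation u ^ 2 = 1 := by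
      rw [← map_pow, hu, div_pow, hw, map_div₀, map_pow, hfy]
      apply div_self
      have : V.valuation (algebraMap F E y) ≠ 0 := by simpa using hy0
      exact pow_ne_zero 2 this
    exact (pow_eq_one_iff_of_nonneg zero_le two_ne_zero).1 h1
  have hu2 : u ^ 2 = algebraMap F E (f / y ^ 2) := by
    rw [hu, div_pow, hw, map_div₀, map_pow]
  by_cases hβ : β = 0
  · exact ⟨α, by rw [hx, hβ, map_zero, zero_mul, add_zero]⟩
  -- `x = β' (δ + u)`
  set β' : F := β * y with hβ'
  have hβ'0 : β' ≠ 0 := mul_ne_zero hβ hy0
  set δ : F := α / β' with hδ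
  have hβ'E : algebraMap F E β' ≠ 0 := by simpa using hβ'0
  have hxδ : x = algebraMap F E β' * (algebraMap F E δ + u) := by
    have h1 : algebraMap F E β' * algebraMap F E δ = algebraMap F E α := by
      rw [← map_mul, hδ, mul_div_cancel₀ _ hβ'0]
    rw [mul_add, h1, hx, hwu, hβ', map_mul]
    ring
  suffices h : ∃ γ : F, V.valuation (algebraMap F E γ) = V.valuation (algebraMap F E δ + u) by
    obtain ⟨γ, hγ⟩ := h
    exact ⟨β' * γ, by rw [hxδ, map_mul (algebraMap F E), map_mul V.valuation, map_mul V.valuation, hγ]⟩
  rcases lt_trichotomy (V.valuation (algebraMap F E δ)) 1 with hlt | heq | hgt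
  · refine ⟨1, ?_⟩
    rw [map_one, map_one, Valuation.map_add_eq_of_lt_right, hu1]
    rw [hu1]; exact hlt
  · have hle1 : V.valuation (algebraMap F E δ + u) ≤ 1 := by
      refine (V.valuation.map_add _ _).trans ?_
      rw [heq, hu1, max_self]
    have hle2 : V.valuation (algebraMap F E δ - u) ≤ 1 := by
      refine (V.valuation.map_sub _ _).trans ?_
      rw [heq, hu1, max_self]
    by_cases h1 : V.valuation (algebraMap F E δ + u) = 1
    · exact ⟨1, by rw [map_one, map_one, h1]⟩
    · have hlt1 : V.valuation (algebraMap F E δ + u) < 1 := lt_of_le_of_ne hle1 h1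
      have hsub : V.valuation (algebraMap F E δ - u) = 1 := by
        by_contra hne
        have hlt2 : V.valuation (algebraMap F E δ - u) < 1 := lt_of_le_of_ne hle2 hne
        have hsum : V.valuation ((algebraMap F E δ + u) + (algebraMap F E δ - u)) < 1 :=
          V.valuation.map_add_lt hlt1 hlt2
        have h2δ : (algebraMap F E δ + u) + (algebraMap F E δ - u) = 2 * algebraMap F E δ := by
          ring
        rw [h2δ, map_mul, hV.val_two h2, heq, one_mul] at hsum
        exact lt_irrefl _ hsum
      refine ⟨δ ^ 2 - f / y ^ 2, ?_⟩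
      rw [map_sub, ← hu2, map_pow]
      have hfac : algebraMap F E δ ^ 2 - u ^ 2 =
          (algebraMap F E δ + u) * (algebraMap F E δ - u) := by ring
      rw [hfac, map_mul, hsub, mul_one]
  · refine ⟨δ, ?_⟩
    rw [Valuation.map_add_eq_of_lt_left]
    rw [hu1]; exact hgt

end sqrtExt

end P025H25
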